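import Vale.Agent.P231.TH.Gp
import Vale.Agent.P231.Co.AngC
import Vale.Agent.P231.TW.Rank
import Vale.Agent.P231.S2I.LH1
import Vale.Agent.P231.FE.Ang

/-!
# P231, stage 3, S3-INT (S8): the sphere of the line through `p` as a smooth family over `ℝ^(l+1)`
-/

set_option maxSynthPendingDepth 3
set_option linter.unusedSectionVars false
set_option linter.unusedVariables false

open Bundle Manifold Set Filter Module MeasureTheory Metric
open scoped ContDiff Manifold Topology

namespace Vale.Agent.P231.TH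

noncomputable section

section Euclid

open Vale.Agent.P231.Fm
open Vale.Agent.P231.S2I (chF cut_chF contDiff_chF sint sint_eq sint_eq_cut dP at_id integrable_dR)
open Vale.Agent.P231.Q (dR Cut)

variable {F : Type} [NormedAddCommGroup F] [InnerProductSpace ℝ F] [FiniteDimensional ℝ F]
  [MeasurableSpace F] [BorelSpace F] {k : ℕ} (o : OrthonormalBasis (Fin (k + 1)) ℝ F)

theorem extd_val {B : Form (Dif.lin F)} (y : F) : B.d.val id y = extd (B.val id) y :=
  Form.d_val _ (Sm.of_contDiff contDiff_id y)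

theorem chF_one {y : F} (hy : 1 < ‖y‖) : (chF y : ℝ) = 1 := cut_chF.one y (by
  rw [mem_closedBall_zero_iff, not_le]
  exact hy)

/-- Stokes on the unit ball: the integral of an exact form over the space is the sphere integral
of the closed form which its primitive becomes outside the ball -/
theorem integral_ball {B : Form (Dif.lin F)} {b0 : Form (dP F)} (hb : b0.d = 0)
    (hB : ∀ x : F, 1 < ‖x‖ → B.val id x = b0.val id x) :
    ∫ y, evalForm (B.d.val id y) o = sint o b0 := by
  rw [sint_eq_cut o hb cut_chF]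
  set S : F → Lam F := fun y => B.val id y - (chF y : ℝ) • b0.val id y with hS
  have hBs : ∀ x : F, ContDiffAt ℝ ∞ (B.val id) x := fun x =>
    B.smooth (Sm.of_contDiff contDiff_id x)
  have hbs : ∀ x : F, ContDiffAt ℝ ∞ (fun y => (chF y : ℝ) • b0.val id y) x := by
    intro x
    rcases eq_or_ne x 0 with rfl | hx
    · refine (contDiffAt_const (c := (0 : Lam F))).congr_of_eventuallyEq ?_
      filter_upwards [cut_chF.zero] with y hy
      rw [hy, zero_smul]
    · exact contDiff_chF.contDiffAt.smul (b0.smooth (at_id hx))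
  have hSs : ContDiff ℝ ∞ S := contDiff_iff_contDiffAt.2 fun x => (hBs x).sub (hbs x)
  have h1 : ∫ y, evalForm (extd S y) o = 0 := by
    refine TW.stokes_prt volume o (hSs.of_le (by simp)) (isCompact_closedBall (0 : F) 1) ?_
    intro x hx
    rw [mem_closedBall_zero_iff, not_le] at hx
    have h2 : S x = 0 := by
      simp only [hS]
      rw [hB x hx, chF_one hx, one_smul, sub_self]
    rw [h2, map_zero]
  have h2 : ∀ y, extd S y = B.d.val id y - dR chF y * b0.val id y := by
    intro y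
    have h3 : extd S y = extd (B.val id) y - extd (fun y => (chF y : ℝ) • b0.val id y) y :=
      extd_sub ((hBs y).differentiableAt (by simp)) ((hbs y).differentiableAt (by simp))
    rw [h3, extd_val]
    congr 1
    rcases eq_or_ne y 0 with rfl | hy
    · have h4 : (fun y => (chF y : ℝ) • b0.val id y) =ᶠ[𝓝 (0 : F)] fun _ => 0 := by
        filter_upwards [cut_chF.zero] with y hy
        rw [hy, zero_smul]
      rw [extd_congr h4, cut_chF.dR_near.self_of_nhds, zero_mul]
      have h5 : extd (fun _ : F => (0 : Lam F)) 0 = 0 := by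
        rw [extd_of (hasFDerivAt_const _ _), map_zero]
      exact h5
    · rw [extd_smul (contDiff_chF.differentiable (by simp) y)
        ((b0.smooth (at_id hy)).differentiableAt (by simp)), ← Form.d_val _ (at_id hy), hb,
        Form.zero_val, smul_zero, add_zero]
      rfl
  have h3 : ∀ y, evalForm (extd S y) o = evalForm (B.d.val id y) o -
      evalForm (dR chF y * b0.val id y) o := fun y => by
    rw [h2, sub_eq_add_neg, Q.evalForm_add, ← neg_one_smul ℝ, Q.evalForm_smul]
    ring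
  simp only [h3] at h1
  rw [integral_sub ?_ (integrable_dR o b0 cut_chF)] at h1
  · exact sub_eq_zero.1 h1
  · have hc : Continuous fun y => B.d.val id y := continuous_iff_continuousAt.2 fun y =>
      (B.d.smooth (Sm.of_contDiff contDiff_id y)).continuousAt
    refine Continuous.integrable_of_hasCompactSupport ((evalL o).continuous.comp hc) ?_
    refine HasCompactSupport.intro (isCompact_closedBall (0 : F) 1) fun y hy => ?_
    rw [mem_closedBall_zero_iff, not_le] at hy
    have h4 : B.val id =ᶠ[𝓝 y] b0.val id := by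
      filter_upwards [continuous_norm.continuousAt.eventually (lt_mem_nhds hy)] with z hz
      exact hB z hz
    have hy0 : y ≠ 0 := by
      rintro rfl
      rw [norm_zero] at hy
      linarith
    change evalL o (B.d.val id y) = 0
    rw [extd_val, extd_congr h4, ← Form.d_val _ (at_id hy0), hb, Form.zero_val, map_zero]

/-- the smooth radial reparametrisation -/
def rho {F : Type} [NormedAddCommGroup F] [InnerProductSpace ℝ F] [FiniteDimensional ℝ F] (x : F) :
    F := (chF x : ℝ) • rad x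

theorem contDiff_rho : ContDiff ℝ ∞ (rho : F → F) := by
  refine contDiff_iff_contDiffAt.2 fun x => ?_
  rcases eq_or_ne x 0 with rfl | hx
  · refine (contDiffAt_const (c := (0 : F))).congr_of_eventuallyEq ?_
    filter_upwards [cut_chF.zero] with y hy
    rw [rho, hy, zero_smul]
  · exact contDiff_chF.contDiffAt.smul (FE.cd_rad hx)

theorem chF_one' {y : F} (hy : 1 ≤ ‖y‖) : (chF y : ℝ) = 1 :=
  Real.smoothTransition.one_of_one_le (by nlinarith)

theorem rho_out {x : F} (hx : 1 ≤ ‖x‖) : rho x = rad x := by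
  rw [rho, chF_one' hx, one_smul]

end Euclid

section Const

open Vale.Agent.P231.Fm Vale.Agent.P231.W Vale.Agent.P231.WA

/-- forms of positive degree vanish on locally constant plots -/
theorem prt_val_const {X : Type*} {D : Dif X} (w : Form D) {V : Type} [NormedAddCommGroup V]
    [NormedSpace ℝ V] [FiniteDimensional ℝ V] {u : V → X} {x : V} (hu : D.At u x) {c : X}
    (hc : ∀ᶠ y in 𝓝 x, u y = c) {k : ℕ} (hk : 0 < k) : prt k (w.val u x) = 0 := by
  have h0 : u x = c := hc.self_of_nhds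
  have h1 : D.At (fun _ : Fin 0 → ℝ => c) 0 := by
    rw [← h0]
    exact Dif.At_const hu 0
  have h2 : u =ᶠ[𝓝 x] (fun _ : Fin 0 → ℝ => c) ∘ (fun _ : V => (0 : Fin 0 → ℝ)) := hc
  rw [w.congr hu h2, w.nat (g := fun _ : V => (0 : Fin 0 → ℝ)) (x := x) h1
    (Sm.of_contDiff contDiff_const _), prt_pull, prt_eq_zero (by simpa using hk), map_zero]

theorem val_const {X : Type*} {D : Dif X} {w : Form D} {k : ℕ} (hw : Form.IsDeg (k + 1) w)
    {V : Type} [NormedAddCommGroup V] [NormedSpace ℝ V] [FiniteDimensional ℝ V] {u : V → X} {x : V}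
    (hu : D.At u x) {c : X} (hc : ∀ᶠ y in 𝓝 x, u y = c) : w.val u x = 0 := by
  have h1 := prt_val_const w hu hc (Nat.succ_pos k)
  rw [← hw.part_eq, Form.part_val]
  exact h1

end Const

section Geo

open Vale.Agent.P234 Vale.Agent.P231 Vale.Agent.P231.Fm Vale.Agent.P231.W Vale.Agent.P231.H775
open Vale.Agent.P231.WE Vale.Agent.P231.FE Vale.Agent.P231.CoC
open Vale.Agent.P231.S2I (chF cut_chF contDiff_chF sint sint_eq sint_eq_cut dP at_id integrable_dR
  map_rad')

variable {E : Type*} [NormedAddCommGroup E] [NormedSpace ℝ E] [FiniteDimensional ℝ E]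
  {M : Type*} [MetricSpace M] [ChartedSpace E M] [IsManifold 𝓘(ℝ, E) ∞ M]
  [RiemannianBundle (fun x : M => TangentSpace 𝓘(ℝ, E) x)]
  [IsContMDiffRiemannianBundle 𝓘(ℝ, E) ∞ E (fun x : M => TangentSpace 𝓘(ℝ, E) x)]
  {e : ∀ x : M, TangentSpace 𝓘(ℝ, E) x → M}
  [CompactSpace M] [ConnectedSpace M] [IsRiemannianManifold 𝓘(ℝ, E) M]

section Maps

variable (e) (D : ℝ) {p : M} {n : ℕ} (L : Em n →L[ℝ] TangentSpace 𝓘(ℝ, E) p)

/-- the family of rays -/
def hS (q : Em n × ℝ) : M := e p ((q.2 * D) • L (rho q.1))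

/-- **the sphere of the line through `p`** -/
def cS (x : Em n) : M := e p (D • L (rho x))

theorem hS_one (x : Em n) : hS e D L (x, 1) = cS e D L x := by
  rw [hS, cS, one_mul]

variable {e}

theorem hS_zero (F : Facts e) (x : Em n) : hS e D L (x, 0) = p := by
  rw [hS]
  simp only [zero_mul, zero_smul]
  exact exp_zero_eq F.isExp p

theorem map_hS (F : Facts e) :
    ((Dif.lin (Em n)).prod (Dif.lin ℝ)).Map (dM E M) (hS e D L) := by
  intro V _ _ _ u x h
  have h1 : Sm (fun y => (u y).1) x := h.1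
  have h2 : Sm (fun y => (u y).2) x := h.2
  have h5 : ∀ᶠ y in 𝓝 x, ContMDiffAt 𝓘(ℝ, V) 𝓘(ℝ, E) ∞ (fun y => hS e D L (u y)) y := by
    filter_upwards [h1, h2] with y k1 k2
    have k3 : ContDiffAt ℝ ∞ (fun y => ((u y).2 * D) • L (rho (u y).1)) y :=
      (k2.mul contDiffAt_const).smul (L.contDiff.contDiffAt.comp y
        (contDiff_rho.contDiffAt.comp y k1))
    exact (contMDiff_exp_fiber F.isExp p).contMDiffAt.comp y k3.contMDiffAt
  exact h5

theorem map_cS (F : Facts e) : (Dif.lin (Em n)).Map (dM E M) (cS e D L) := by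
  intro V _ _ _ u x h
  have h5 : (dM E M).At (fun y => hS e D L (u y, 1)) x :=
    map_hS D L F (u := fun y => (u y, (1 : ℝ))) ⟨h, Sm.of_contDiff contDiff_const _⟩
  refine (dM E M).congr h5 (Eventually.of_forall fun y => ?_)
  exact hS_one e D L (u y)

theorem cd_cS (F : Facts e) (x : Em n) :
    ContMDiffAt 𝓘(ℝ, Em n) 𝓘(ℝ, E) ∞ (cS e D L) x := by
  have h1 : (dM E M).At (cS e D L ∘ id) x := map_cS D L F (Sm.of_contDiff contDiff_id x)
  exact Filter.Eventually.self_of_nhds h1

end Maps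

variable (F : Facts e) {D : ℝ} (hD : 0 < D) (hB : InjGE e D)
    (hdiam : ∀ p q : M, dist p q ≤ D) {p : M} {n : ℕ}
    (hl : ∀ x y : M, dist x y = D → finrank ℝ (Pl e D x y) = 2 * n + 2)
  {Pi : TangentSpace 𝓘(ℝ, E) p → TangentSpace 𝓘(ℝ, E) p →L[ℝ] TangentSpace 𝓘(ℝ, E) p}
  {o : TangentSpace 𝓘(ℝ, E) p → Fm.Lam (TangentSpace 𝓘(ℝ, E) p)}
  {ρ : TangentSpace 𝓘(ℝ, E) p → ℝ} {r₀ : ℝ}
    (hJ : LineP e D p n Pi o) (hρ : Rho e D p ρ r₀) (a : ℝ)
  {L : Em n →L[ℝ] TangentSpace 𝓘(ℝ, E) p} (hL : L ∈ FrS n Pi o)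

/-- the antipode of `p` on the line -/
def qS (e : ∀ x : M, TangentSpace 𝓘(ℝ, E) x → M) (D : ℝ)
    (L : Em n →L[ℝ] TangentSpace 𝓘(ℝ, E) p) : M := e p (D • L (bE n 0))

include hJ hL in
theorem exp_rad {x : Em n} (hx : x ≠ 0) : e p (D • L (rad x)) = qS e D L := by
  have h1 : ‖L (rad x)‖ = 1 := by rw [hL.1, nm_rad hx]
  exact ((hJ.cut _ _ (FrS.norm0 hJ.os hL) h1).2 (FrS.fix hJ.os hL _)).symm

include hJ hL in
theorem cS_out {x : Em n} (hx : 1 ≤ ‖x‖) : cS e D L x = qS e D L := by
  have hx0 : x ≠ 0 := by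
    rintro rfl
    rw [norm_zero] at hx
    linarith
  rw [cS, rho_out hx]
  exact exp_rad hJ hL hx0

variable (L) in
/-- the unit vectors of the line -/
def Us (v₀ : UT E M) (x : Em n) : UT E M := mkp p v₀ (L (rad x))

include hL in
theorem map_Us (v₀ : UT E M) : (dP (Em n)).Map ((dUT E M).on (up p)) (Us L v₀) := by
  intro V _ _ _ u x hu
  have h0 : ∀ᶠ y in 𝓝 x, u y ≠ 0 := hu.2
  refine at_mkp (f := fun y => L (rad (u y))) ?_ ?_
  · filter_upwards [hu.1, h0] with y k1 k2
    exact L.contDiff.contDiffAt.comp y ((cd_rad k2).comp y k1)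
  · filter_upwards [h0] with y hy
    rw [hL.1, nm_rad hy]

include hL in
theorem map_Us' (v₀ : UT E M) : (dP (Em n)).Map (dUT E M) (Us L v₀) := fun hu =>
  (map_Us hL v₀ hu).1

include hL in
theorem gm_Us (v₀ : UT E M) {x : Em n} (hx : x ≠ 0) (t : ℝ) :
    gm e (Us L v₀ x, t) = e p (t • L (rad x)) := by
  have h1 : nm (E := E) p (L (rad x)) = 1 := by
    have : ‖L (rad x)‖ = 1 := by rw [hL.1, nm_rad hx]
    exact this
  rw [Us, mkp_eq h1]
  rfl

/-- the primitive outside the ball -/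
def b0S (v₀ : UT E M) : Form (dP (Em n)) :=
  Form.pull (Us L v₀) (map_Us' hL v₀) (WR.B0 F D (FF F hD hB hdiam hl hJ hρ a))

include hJ in
theorem b0S_d (v₀ : UT E M) : (b0S F hD hB hdiam hl hJ hρ a hL v₀).d = 0 := by
  set G := FF F hD hB hdiam hl hJ hρ a with hG
  have hGd : G.d = 0 := FF_d F hD hB hdiam hl hJ hρ a
  have hGk : Form.IsDeg (2 * n + 2) G := FF_isDeg F hD hB hdiam hl hJ hρ a
  have h1 := res_B0_d F D p hGd hGk
  refine Form.ext_val fun V _ _ _ u x hu => ?_
  have h0 : ∀ᶠ y in 𝓝 x, u y ≠ 0 := hu.2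
  have h2 : ((dUT E M).on (up p)).At (Us L v₀ ∘ u) x := map_Us hL v₀ hu
  have h3 := congrArg (fun f : Form ((dUT E M).on (up p)) => f.val (Us L v₀ ∘ u) x) h1
  change (Form.res (up p) (WR.B0 F D G)).d.val (Us L v₀ ∘ u) x = _ at h3
  have h4 : (b0S F hD hB hdiam hl hJ hρ a hL v₀).d.val u x =
      (Form.res (up p) (WR.B0 F D G)).d.val (Us L v₀ ∘ u) x := by
    rw [b0S, ← Form.pull_d, Form.res, ← Form.pull_d, Form.pull_val _ _ hu]
    exact (Form.pull_val (f := id) (Dif.map_on (D := dUT E M)) (WR.B0 F D G).d h2).symm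
  rw [h4, h3, Form.zero_val]
  have h5 : (dC e D p).At (bar e D ∘ (Us L v₀ ∘ u)) x :=
    (Dif.map_quot : ((dUT E M).on (up p)).Map (dC e D p) (bar e D)) h2
  have h6 : (dM E M).At (id ∘ (bar e D ∘ (Us L v₀ ∘ u))) x := map_dC F D p h5
  refine Eq.trans (Form.pull_val _ _ h2) ?_
  refine Eq.trans (Form.pull_val _ _ h5) ?_
  refine val_const hGk h6 (c := qS e D L) ?_
  filter_upwards [h0] with y hy
  show gm e (Us L v₀ (u y), D) = _
  rw [gm_Us hL v₀ hy]
  exact exp_rad hJ hL hy

/-- the primitive on the whole space -/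
def BS (G : Form (dM E M)) : Form (Dif.lin (Em n)) := Form.K (Form.pull (hS e D L) (map_hS D L F) G)

theorem BS_d {G : Form (dM E M)} (hG : G.d = 0) {k : ℕ} (hGk : Form.IsDeg (k + 1) G) :
    (BS (D := D) (L := L) F G).d = Form.pull (cS e D L) (map_cS D L F) G := by
  have h := H584.homotopy' (Form.pull (hS e D L) (map_hS D L F) G)
  rw [← Form.pull_d, hG] at h
  have hz : Form.pull (hS e D L) (map_hS D L F) (0 : Form (dM E M)) = 0 :=
    map_zero (Form.pullA (hS e D L) (map_hS D L F))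
  rw [hz, H584.K_zero, zero_add] at h
  have h1 : at_ 1 (Form.pull (hS e D L) (map_hS D L F) G) =
      Form.pull (cS e D L) (map_cS D L F) G :=
    H584.pull_pull (Form.map_slice 1) (map_hS D L F) (map_cS D L F) (hS_one e D L) G
  have h2 : at_ 0 (Form.pull (hS e D L) (map_hS D L F) G) = 0 := by
    have hc : (Dif.lin (Em n)).Map (dM E M) (fun _ => p) := by
      intro V _ _ _ u x hu
      exact (Eventually.of_forall fun y => contMDiffAt_const :
        ∀ᶠ y in 𝓝 x, ContMDiffAt 𝓘(ℝ, V) 𝓘(ℝ, E) ∞ (fun _ : V => p) y)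
    rw [show at_ 0 (Form.pull (hS e D L) (map_hS D L F) G) = Form.pull (fun _ => p) hc G from
      H584.pull_pull (Form.map_slice 0) (map_hS D L F) hc (hS_zero D L F) G]
    exact Form.pull_const_eq_zero hc hGk
  rw [h1, h2, sub_zero] at h
  exact h.symm

/-- outside the unit ball the two primitives agree -/
theorem BS_out (v₀ : UT E M) {x : Em n} (hx : 1 < ‖x‖) :
    (BS (D := D) (L := L) F (FF F hD hB hdiam hl hJ hρ a)).val id x =
      (b0S F hD hB hdiam hl hJ hρ a hL v₀).val id x := by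
  set G := FF F hD hB hdiam hl hJ hρ a with hG
  let S : Set (Em n) := {x | 1 < ‖x‖}
  have hSo : IsOpen S := isOpen_lt continuous_const continuous_norm
  have hS0 : ∀ y ∈ S, y ≠ 0 := by
    rintro y hy rfl
    have : (1 : ℝ) < ‖(0 : Em n)‖ := hy
    rw [norm_zero] at this
    linarith
  have hi1 : ((Dif.lin (Em n)).on S).Map (Dif.lin (Em n)) id := Dif.map_on
  have hi2 : ((Dif.lin (Em n)).on S).Map (dP (Em n)) id := Dif.map_on_mono hS0
  -- the two families
  have hk1 : (((Dif.lin (Em n)).on S).prod (Dif.lin ℝ)).Map (dM E M)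
      (fun q : Em n × ℝ => hS e D L (id q.1, q.2)) := fun hu =>
    map_hS D L F ⟨hi1 hu.1, hu.2⟩
  have hU : ((Dif.lin (Em n)).on S).Map (dUT E M) (Us L v₀) := fun hu =>
    map_Us' hL v₀ (hi2 hu)
  have hk2 : (((Dif.lin (Em n)).on S).prod (Dif.lin ℝ)).Map (dM E M)
      (fun q : Em n × ℝ => gm e (Us L v₀ q.1, D * q.2)) := fun {V} _ _ _ {u x} hu => by
    have h1 : Sm (fun y => (u y).2) x := hu.2
    have h2 : Sm (fun y => D * (u y).2) x := by
      filter_upwards [h1] with y hy using contDiffAt_const.mul hy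
    exact map_gm F (u := fun y => (Us L v₀ (u y).1, D * (u y).2)) ⟨hU hu.1, h2⟩
  have e1 : Form.pull id hi1 (BS (D := D) (L := L) F G) = Form.K (Form.pull _ hk1 G) := by
    rw [BS, WR.pull_K]
    congr 1
    exact H584.pull_pull (WR.map_prodId hi1) (map_hS D L F) hk1 (fun _ => rfl) G
  have e2 : Form.pull id hi2 (b0S F hD hB hdiam hl hJ hρ a hL v₀) =
      Form.K (Form.pull _ hk2 G) := by
    have h1 : Form.pull id hi2 (b0S F hD hB hdiam hl hJ hρ a hL v₀) =
        Form.pull (Us L v₀) hU (WR.B0 F D G) :=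
      H584.pull_pull hi2 (map_Us' hL v₀) hU (fun _ => rfl) _
    rw [h1, WR.B0, WR.pull_KT, KT]
    congr 1
    have h2 : ((((Dif.lin (Em n)).on S).prod (Dif.lin ℝ))).Map (dM E M)
        (fun q : Em n × ℝ => gm e (Us L v₀ q.1, q.2)) := fun hu =>
      map_gm F (u := fun y => (Us L v₀ _, _)) ⟨hU hu.1, hu.2⟩
    rw [H584.pull_pull (WR.map_prodId hU) (map_gm F) h2 (fun _ => rfl) G]
    exact H584.pull_pull (map_scale D) h2 hk2 (fun _ => rfl) G
  have e3 : Form.pull _ hk1 G = Form.pull _ hk2 G := by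
    refine Form.ext_val fun V _ _ _ u x hu => ?_
    rw [Form.pull_val _ _ hu, Form.pull_val _ _ hu]
    refine G.congr (hk1 hu) ?_
    have h1 : ∀ᶠ y in 𝓝 x, (u y).1 ∈ S := hu.1.2
    filter_upwards [h1] with y hy
    show hS e D L ((u y).1, (u y).2) = gm e (Us L v₀ (u y).1, D * (u y).2)
    rw [gm_Us hL v₀ (hS0 _ hy), hS, rho_out (le_of_lt hy), mul_comm]
  have hid : ((Dif.lin (Em n)).on S).At (id : Em n → Em n) x :=
    ⟨Sm.of_contDiff contDiff_id x, hSo.mem_nhds hx⟩
  have e4 := congrArg (fun f : Form ((Dif.lin (Em n)).on S) => f.val id x)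
    (e1.trans ((congrArg Form.K e3).trans e2.symm))
  change (Form.pull id hi1 (BS (D := D) (L := L) F G)).val id x =
    (Form.pull id hi2 (b0S F hD hB hdiam hl hJ hρ a hL v₀)).val id x at e4
  rw [Form.pull_val _ _ hid, Form.pull_val _ _ hid] at e4
  exact e4

/-- the primitive is invariant under normalisation -/
theorem b0S_rad (v₀ : UT E M) : Form.pull rad map_rad' (b0S F hD hB hdiam hl hJ hρ a hL v₀) =
    b0S F hD hB hdiam hl hJ hρ a hL v₀ := by
  refine Form.ext_val fun V _ _ _ u x hu => ?_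
  rw [Form.pull_val _ _ hu, b0S, Form.pull_val _ _ hu]
  refine (Form.pull_val (map_Us' hL v₀) _ (map_rad' hu)).trans ?_
  refine (WR.B0 F D (FF F hD hB hdiam hl hJ hρ a)).congr (map_Us' hL v₀ (map_rad' hu)) ?_
  have h0 : ∀ᶠ y in 𝓝 x, u y ≠ 0 := hu.2
  filter_upwards [h0] with y hy
  show Us L v₀ (rad (u y)) = Us L v₀ (u y)
  rw [Us, Us, rad_unit (nm_rad hy)]

include hL in
/-- **the integral of `F` over the line** -/
theorem integral_cS (v₀ : UT E M) : ∫ x, evalForm ((FF F hD hB hdiam hl hJ hρ a).val (cS e D L) x)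
    (bE n) = a * ((2 * n + 1).factorial : ℝ) * sv (Em n) := by
  set G := FF F hD hB hdiam hl hJ hρ a with hG
  have hGd : G.d = 0 := FF_d F hD hB hdiam hl hJ hρ a
  have hGk : Form.IsDeg (2 * n + 1 + 1) G := FF_isDeg F hD hB hdiam hl hJ hρ a
  have h1 := BS_d (D := D) (L := L) F hGd hGk
  have h2 : ∀ x : Em n, (G.val (cS e D L) x) = (BS (D := D) (L := L) F G).d.val id x := by
    intro x
    rw [h1, Form.pull_val _ _ (Sm.of_contDiff contDiff_id x)]
    rfl
  simp only [h2]
  rw [integral_ball (k := 2 * n + 1) (bE n) (b0S_d F hD hB hdiam hl hJ hρ a hL v₀)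
    (fun x hx => BS_out F hD hB hdiam hl hJ hρ a hL v₀ hx)]
  refine sint_solid (bE n) (by omega) fun y hy => ?_
  rw [b0S_rad, b0S, Form.pull_val _ _ (at_id hy)]
  exact B0_frame F hD hB hdiam hl hJ hρ a v₀ hL hy (Eventually.of_forall fun z => rfl)

end Geo

end

end Vale.Agent.P231.TH
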