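import Vale.Agent.P231.TH.Thin
import Vale.Agent.P231.Co.M3h
import Vale.Agent.P231.Co.BunC
import Vale.Agent.P231.FE.Spr

/-!
# P231, stage 3, S3-INT (TH 6): the dimension of the cut locus
-/

set_option maxSynthPendingDepth 3
set_option linter.unusedSectionVars false
set_option linter.unusedVariables false

open Bundle Manifold Set Filter Module
open scoped ContDiff Manifold Topology

namespace Vale.Agent.P231.TH

noncomputable section

section Slice

open Vale.Agent.P231.Fm Vale.Agent.P231.FE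

variable {T : Type*} [NormedAddCommGroup T] [InnerProductSpace ℝ T] [FiniteDimensional ℝ T]
  {m : ℕ} {Pi : T → T →L[ℝ] T}

/-- the transition between the planes of `u₀` and `u` -/
def trn (Pi : T → T →L[ℝ] T) (u₀ u : T) : T →L[ℝ] T :=
  Pi u₀ * Pi u + (1 - Pi u₀) * (1 - Pi u)

/-- the point of the plane of `u` over `u₀` -/
def slc (Pi : T → T →L[ℝ] T) (u₀ u : T) : T := Pi u (Ring.inverse (trn Pi u₀ u) u₀)

theorem exists_slice (h : Spread m Pi) {u₀ : T} (hu₀ : u₀ ≠ 0) : ∀ᶠ u in 𝓝 u₀,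
    ContDiffAt ℝ ∞ (slc Pi u₀) u ∧ Pi u (slc Pi u₀ u) = slc Pi u₀ u ∧
      Pi u₀ (slc Pi u₀ u) = u₀ := by
  have hT : CompleteSpace (T →L[ℝ] T) := inferInstance
  have h1 : ∀ᶠ u in 𝓝 u₀, u ≠ 0 := isOpen_ne.mem_nhds hu₀
  have hid : Pi u₀ * Pi u₀ = Pi u₀ := by
    ext x
    exact h.idem u₀ hu₀ x
  have h2 : trn Pi u₀ u₀ = 1 := by
    have h3 : (1 - Pi u₀) * (1 - Pi u₀) = 1 - Pi u₀ := by
      rw [sub_mul, mul_sub, mul_sub, hid, one_mul, mul_one, one_mul, sub_self, sub_zero]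
    rw [trn, hid, h3, add_sub_cancel]
  have h3 : ∀ u, u ≠ 0 → ContDiffAt ℝ ∞ (trn Pi u₀) u := by
    intro u hu
    have k1 := h.smooth u hu
    exact (contDiffAt_const.mul k1).add (contDiffAt_const.mul (contDiffAt_const.sub k1))
  have h4 : ∀ᶠ u in 𝓝 u₀, IsUnit (trn Pi u₀ u) := by
    have k1 : {A : T →L[ℝ] T | IsUnit A} ∈ 𝓝 (trn Pi u₀ u₀) := by
      rw [h2]
      exact Units.isOpen.mem_nhds isUnit_one
    exact (h3 u₀ hu₀).continuousAt.eventually k1
  filter_upwards [h1, h4] with u hu hU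
  refine ⟨?_, ?_, ?_⟩
  · obtain ⟨A, hA⟩ := hU
    have k1 : ContDiffAt ℝ ∞ Ring.inverse (trn Pi u₀ u) := by
      rw [← hA]
      exact contDiffAt_ringInverse ℝ A
    have k2 : ContDiffAt ℝ ∞ (fun u => Ring.inverse (trn Pi u₀ u)) u := k1.comp u (h3 u hu)
    exact (h.smooth u hu).clm_apply (k2.clm_apply contDiffAt_const)
  · exact h.idem u hu _
  · have k1 : trn Pi u₀ u (Ring.inverse (trn Pi u₀ u) u₀) = u₀ := by
      have k2 := Ring.mul_inverse_cancel _ hU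
      exact DFunLike.congr_fun k2 u₀
    have k2 : Pi u₀ * trn Pi u₀ u = Pi u₀ * Pi u := by
      have k3 : Pi u₀ * (1 - Pi u₀) = 0 := by rw [mul_sub, mul_one, hid, sub_self]
      rw [trn, mul_add, ← mul_assoc, ← mul_assoc, hid, k3, zero_mul, add_zero]
    have k3 := DFunLike.congr_fun k2 (Ring.inverse (trn Pi u₀ u) u₀)
    have k4 : Pi u₀ (trn Pi u₀ u (Ring.inverse (trn Pi u₀ u) u₀)) =
      Pi u₀ (Pi u (Ring.inverse (trn Pi u₀ u) u₀)) := k3
    rw [k1, h.self u₀ hu₀] at k4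
    exact k4.symm

end Slice

open Vale.Agent.P234 Vale.Agent.P231 Vale.Agent.P231.Fm Vale.Agent.P231.W Vale.Agent.P231.H775
open Vale.Agent.P231.WE Vale.Agent.P231.WE2 Vale.Agent.P231.CoC Vale.Agent.P231.FE

variable {E : Type*} [NormedAddCommGroup E] [NormedSpace ℝ E] [FiniteDimensional ℝ E]
  {M : Type*} [MetricSpace M] [ChartedSpace E M] [IsManifold 𝓘(ℝ, E) ∞ M]
  [RiemannianBundle (fun x : M => TangentSpace 𝓘(ℝ, E) x)]
  [IsContMDiffRiemannianBundle 𝓘(ℝ, E) ∞ E (fun x : M => TangentSpace 𝓘(ℝ, E) x)]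
  [CompactSpace M] [ConnectedSpace M] [IsRiemannianManifold 𝓘(ℝ, E) M]
  {e : ∀ x : M, TangentSpace 𝓘(ℝ, E) x → M}

theorem cd_hat {T : Type*} [NormedAddCommGroup T] [InnerProductSpace ℝ T] {s : T} (hs : s ≠ 0) :
    ContDiffAt ℝ ∞ (fun s : T => hat s) s :=
  ((contDiffAt_norm ℝ hs).inv (norm_ne_zero_iff.2 hs)).smul contDiffAt_id

theorem norm_hat' {T : Type*} [NormedAddCommGroup T] [NormedSpace ℝ T] {s : T} (hs : s ≠ 0) :
    ‖hat s‖ = 1 := by
  rw [hat, norm_smul, norm_inv, norm_norm, inv_mul_cancel₀ (norm_ne_zero_iff.2 hs)]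

/-- **the cut locus has codimension `l + 1`** -/
theorem dimLE_dC (F : Facts e) {D : ℝ} (hD : 0 < D) (hB : InjGE e D)
    (hdiam : ∀ p q : M, dist p q ≤ D) {l : ℕ}
    (hl : ∀ x y : M, dist x y = D → finrank ℝ (Pl e D x y) = l + 1) (p : M) :
    WA.DimLE (dC e D p) (finrank ℝ E - (l + 1)) := by
  intro V _ _ _ u x hu
  obtain ⟨g, hg1, hg2⟩ := hu
  have hsp := spread F hD hB hdiam hl p
  have hf0 : foot (g x) = p := hg2.2.self_of_nhds
  set u₀ : TangentSpace 𝓘(ℝ, E) p := vp p (g x) with hu₀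
  have hn0 : ‖u₀‖ = 1 := norm_vp hf0
  have hne : u₀ ≠ 0 := ne_zero_of_unit hn0
  have hγ : Sm (fun y => vp p (g y)) x := sm_vecp hg2
  have hsl := hγ.continuousAt.eventually (exists_slice hsp hne)
  -- the complement
  let N := LinearMap.ker (PiP e D p u₀ : TangentSpace 𝓘(ℝ, E) p →ₗ[ℝ] TangentSpace 𝓘(ℝ, E) p)
  have hN : finrank ℝ N = finrank ℝ E - (l + 1) := by
    have h1 := LinearMap.finrank_range_add_finrank_ker
      (PiP e D p u₀ : TangentSpace 𝓘(ℝ, E) p →ₗ[ℝ] TangentSpace 𝓘(ℝ, E) p)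
    rw [hsp.rank u₀ hne] at h1
    have h2 : finrank ℝ (TangentSpace 𝓘(ℝ, E) p) = finrank ℝ E := rfl
    change finrank ℝ (LinearMap.ker
      (PiP e D p u₀ : TangentSpace 𝓘(ℝ, E) p →ₗ[ℝ] TangentSpace 𝓘(ℝ, E) p)) = _
    omega
  let φ : N ≃L[ℝ] EuclideanSpace ℝ (Fin (finrank ℝ E - (l + 1))) :=
    ContinuousLinearEquiv.ofFinrankEq (by rw [finrank_euclideanSpace, Fintype.card_fin, hN])
  let pr : TangentSpace 𝓘(ℝ, E) p →L[ℝ] N := (1 - PiP e D p u₀).codRestrict N (fun y => by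
    rw [LinearMap.mem_ker]
    change PiP e D p u₀ (y - PiP e D p u₀ y) = 0
    rw [map_sub, hsp.idem u₀ hne, sub_self])
  let c : EuclideanSpace ℝ (Fin (finrank ℝ E - (l + 1))) → M := fun η =>
    bar e D (mkp p (g x) (hat (u₀ + (φ.symm η : TangentSpace 𝓘(ℝ, E) p))))
  have hcne : ∀ η, u₀ + (φ.symm η : TangentSpace 𝓘(ℝ, E) p) ≠ 0 := by
    intro η h0
    have h1 : PiP e D p u₀ (φ.symm η : TangentSpace 𝓘(ℝ, E) p) = 0 := (φ.symm η).2
    have h2 := congrArg (PiP e D p u₀) h0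
    rw [map_add, h1, hsp.self u₀ hne, add_zero, map_zero] at h2
    exact hne h2
  refine ⟨EuclideanSpace ℝ (Fin (finrank ℝ E - (l + 1))), inferInstance, inferInstance,
    inferInstance, c, fun y => φ (pr (slc (PiP e D p) u₀ (vp p (g y)))), ?_, ?_, ?_, ?_⟩
  · rw [finrank_euclideanSpace, Fintype.card_fin]
  · filter_upwards [hγ, hsl] with y k1 k2
    have k3 : ContDiffAt ℝ ∞ (fun y => slc (PiP e D p) u₀ (vp p (g y))) y :=
      ContDiffAt.comp (f := fun y => vp p (g y)) y k2.1 k1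
    have k4 : ContDiffAt ℝ ∞ (fun y => pr (slc (PiP e D p) u₀ (vp p (g y)))) y :=
      ContDiffAt.comp (f := fun y => slc (PiP e D p) u₀ (vp p (g y))) y
        pr.contDiff.contDiffAt k3
    exact φ.contDiff.contDiffAt.comp y k4
  · refine ⟨fun η => mkp p (g x) (hat (u₀ + (φ.symm η : TangentSpace 𝓘(ℝ, E) p))),
      Eventually.of_forall fun η => rfl, ?_⟩
    refine at_mkp (Eventually.of_forall fun η => ?_) (Eventually.of_forall fun η => ?_)
    · have k1 : ContDiffAt ℝ ∞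
          (fun η => u₀ + (φ.symm η : TangentSpace 𝓘(ℝ, E) p)) η :=
        contDiffAt_const.add ((N.subtypeL.contDiff.contDiffAt).comp η φ.symm.contDiff.contDiffAt)
      exact (cd_hat (hcne η)).comp η k1
    · exact norm_hat' (hcne η)
  · filter_upwards [hg1, hg2.2, hsl] with y k1 k2 k3
    obtain ⟨-, j2, j3⟩ := k3
    have k4 : foot (g y) = p := k2
    set q := slc (PiP e D p) u₀ (vp p (g y)) with hq
    have h5 : (u₀ + (φ.symm (φ (pr q)) : TangentSpace 𝓘(ℝ, E) p)) = q := by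
      rw [φ.symm_apply_apply]
      change u₀ + (q - PiP e D p u₀ q) = q
      rw [j3, add_sub_cancel]
    have hq0 : q ≠ 0 := by
      intro h0
      rw [h0, map_zero] at j3
      exact hne j3.symm
    have hn1 : ‖vp p (g y)‖ = 1 := norm_vp k4
    have h6 : u y = e p (D • vp p (g y)) := Eq.trans k1.symm (bar_vp k4)
    show u y = bar e D (mkp p (g x) (hat (u₀ + (φ.symm (φ (pr q)) : TangentSpace 𝓘(ℝ, E) p))))
    rw [h5, h6]
    have hn3 : ‖hat q‖ = 1 := norm_hat' hq0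
    have hj : PiP e D p (vp p (g y)) (hat q) = hat q := by rw [hat, map_smul, j2]
    generalize hat q = a at hn3 hj
    have hn2 : nm (E := E) p a = 1 := hn3
    rw [mkp_eq hn2]
    refine Eq.trans ?_ (bar_mk D p a hn2).symm
    exact (cut_iff F hD hB hdiam hl hn1 hn3).2 hj

end

end Vale.Agent.P231.TH
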