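import Vale.Agent.P231.TH.Gp
import Vale.Agent.P231.TH.Dim

/-!
# P231, stage 3, S3-INT (TH 7): contraction and thinning of small families of unit vectors
-/

set_option maxSynthPendingDepth 3
set_option linter.unusedSectionVars false
set_option linter.unusedVariables false

open Bundle Manifold Set Filter Module MeasureTheory
open scoped ContDiff Manifold Topology

namespace Vale.Agent.P231.TH

noncomputable section

open Vale.Agent.P234 Vale.Agent.P231 Vale.Agent.P231.Fm Vale.Agent.P231.W Vale.Agent.P231.WR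
open Vale.Agent.P231.H775 Vale.Agent.P231.CoC Vale.Agent.P231.WF Vale.Agent.P231.WE

variable {E : Type*} [NormedAddCommGroup E] [NormedSpace ℝ E] [FiniteDimensional ℝ E]
  {M : Type*} [MetricSpace M] [ChartedSpace E M] [IsManifold 𝓘(ℝ, E) ∞ M]
  [RiemannianBundle (fun x : M => TangentSpace 𝓘(ℝ, E) x)]
  [IsContMDiffRiemannianBundle 𝓘(ℝ, E) ∞ E (fun x : M => TangentSpace 𝓘(ℝ, E) x)]
  [CompactSpace M] [ConnectedSpace M] [IsRiemannianManifold 𝓘(ℝ, E) M]
  {e : ∀ x : M, TangentSpace 𝓘(ℝ, E) x → M}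

/-- a homotopy of an invariant open set `O` of unit vectors in `O'` from the inclusion to a thin
map -/
structure Hom (F : Facts e) (O O' : Set (UT E M)) (H : UT E M × ℝ → UT E M) (m : ℕ) : Prop where
  opn : Opn (dUT E M) O
  inv : ∀ v ∈ O, ∀ t, phi F (v, t) ∈ O
  map : (((dUT E M).on O).prod (Dif.lin ℝ)).Map ((dUT E M).on O') H
  zero : ∀ v ∈ O, ∀ s ≤ 0, H (v, s) = v
  one : ∀ v ∈ O, ∀ s, 1 ≤ s → H (v, s) = H (v, 1)
  thin : Thin ((dUT E M).on O) ((dUT E M).on O') (fun v => H (v, 1)) m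

theorem at_constUT (v : UT E M) {V : Type} [NormedAddCommGroup V] [NormedSpace ℝ V]
    [FiniteDimensional ℝ V] (x : V) : (dUT E M).At (fun _ : V => v) x := by
  refine at_iff.2 (Eventually.of_forall fun y => ?_)
  exact contMDiffAt_const

/-- maps of open sets of `UT` into open sets -/
theorem mem_of_at {O O' : Set (UT E M)} (hO : Opn (dUT E M) O) {H : UT E M × ℝ → UT E M}
    (h : (((dUT E M).on O).prod (Dif.lin ℝ)).Map ((dUT E M).on O') H) {v : UT E M} (hv : v ∈ O)
    (s : ℝ) : H (v, s) ∈ O' := by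
  have h1 : (((dUT E M).on O).prod (Dif.lin ℝ)).At (fun _ : ℝ => (v, s)) 0 :=
    ⟨⟨at_constUT v 0, Eventually.of_forall fun _ => hv⟩, Sm.of_contDiff contDiff_const _⟩
  exact (h h1).2.self_of_nhds

theorem Hom.mem {F : Facts e} {O O' : Set (UT E M)} {H : UT E M × ℝ → UT E M} {m : ℕ}
    (h : Hom F O O' H m) {v : UT E M} (hv : v ∈ O) (s : ℝ) : H (v, s) ∈ O' :=
  mem_of_at h.opn h.map hv s

theorem Hom.zero' {F : Facts e} {O O' : Set (UT E M)} {H : UT E M × ℝ → UT E M} {m : ℕ}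
    (h : Hom F O O' H m) {v : UT E M} (hv : v ∈ O) : H (v, 0) = v := h.zero v hv 0 le_rfl

theorem Hom.sub {F : Facts e} {O O' : Set (UT E M)} {H : UT E M × ℝ → UT E M} {m : ℕ}
    (h : Hom F O O' H m) : O ⊆ O' := fun v hv => by
  have := h.mem hv 0
  rwa [h.zero' hv] at this

/-- forms of large degree vanish on the end -/
theorem Hom.pull_eq_zero {F : Facts e} {O O' : Set (UT E M)} {H : UT E M × ℝ → UT E M} {m : ℕ}
    (h : Hom F O O' H m) (hm : ((dUT E M).on O).Map ((dUT E M).on O') (fun v => H (v, 1)))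
    {k : ℕ} (hk : m < k) {w : Form ((dUT E M).on O')} (hw : Form.IsDeg k w) :
    Form.pull (fun v => H (v, 1)) hm w = 0 :=
  h.thin.pull_eq_zero hm hk hw

/-- the flow on an invariant open set -/
theorem isFlow_on (F : Facts e) {D : ℝ} (hD : 0 < D) (hB : InjGE e D)
    (hdiam : ∀ p q : M, dist p q ≤ D) {O : Set (UT E M)}
    (hinv : ∀ v ∈ O, ∀ t, phi F (v, t) ∈ O) :
    (((dUT E M).on O).prod (Dif.lin ℝ)).Map ((dUT E M).on O) (phi F) := by
  intro V _ _ _ u x hu
  refine ⟨map_phi F ⟨hu.1.1, hu.2⟩, ?_⟩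
  filter_upwards [hu.1.2] with y hy
  exact hinv _ hy _

/-- **shrinking**: the part of `O` which stays in a smaller target -/
theorem Hom.shrink {F : Facts e} {D : ℝ} (hD : 0 < D) (hB : InjGE e D)
    (hdiam : ∀ p q : M, dist p q ≤ D) {O O' : Set (UT E M)} {H : UT E M × ℝ → UT E M} {m : ℕ}
    (h : Hom F O O' H m) {O₂ : Set (UT E M)} (hO₂ : Opn (dUT E M) O₂) :
    Hom F (core (phi F) (trk O H O₂)) O₂ H m := by
  have hfl := isFlow_phi F hD hB hdiam
  have hmapU : (((dUT E M).on O).prod (Dif.lin ℝ)).Map (dUT E M) H := fun hu => (h.map hu).1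
  have hsub : core (phi F) (trk O H O₂) ⊆ trk O H O₂ := core_subset hfl
  have hO : ∀ v ∈ core (phi F) (trk O H O₂), v ∈ O := fun v hv => (hsub hv).1
  have hst : ∀ v ∈ core (phi F) (trk O H O₂), ∀ s : ℝ, H (v, s) ∈ O₂ := by
    intro v hv s
    rcases le_total s 0 with hs | hs
    · have h1 := (hsub hv).2 0 ⟨le_rfl, zero_le_one⟩
      rwa [h.zero v (hO v hv) 0 le_rfl, ← h.zero v (hO v hv) s hs] at h1
    · rcases le_total s 1 with hs' | hs'
      · exact (hsub hv).2 s ⟨hs, hs'⟩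
      · rw [h.one v (hO v hv) s hs']
        exact (hsub hv).2 1 ⟨zero_le_one, le_rfl⟩
  refine ⟨opn_core (by positivity) hfl (opn_trk h.opn hmapU hO₂), fun v hv t =>
    core_inv hfl hv t, ?_, fun v hv => h.zero v (hO v hv), fun v hv => h.one v (hO v hv), ?_⟩
  · intro V _ _ _ u x hu
    have h1 : ∀ᶠ y in 𝓝 x, (u y).1 ∈ core (phi F) (trk O H O₂) := hu.1.2
    refine ⟨(h.map (u := u) ⟨⟨hu.1.1, h1.mono fun y hy => hO _ hy⟩, hu.2⟩).1, ?_⟩
    filter_upwards [h1] with y hy
    exact hst _ hy _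
  · have h1 : Thin ((dUT E M).on O) (dUT E M) (fun v => H (v, 1)) m :=
      Thin.comp_left (g := id) h.thin Dif.map_on
    exact (h1.subset hO).on_on hO₂ fun v hv => hst v hv 1

section Exists

variable (F : Facts e) {D : ℝ} (hD : 0 < D) (hB : InjGE e D)
    (hdiam : ∀ p q : M, dist p q ≤ D) {l : ℕ}
    (hl : ∀ x y : M, dist x y = D → finrank ℝ (Pl e D x y) = l + 1)
variable {V : Type} [NormedAddCommGroup V] [NormedSpace ℝ V] [FiniteDimensional ℝ V]

include hD hB hdiam in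
/-- the homotopy from the homotopy of the foot points -/
theorem hom_of {U : Set M} {R : M × ℝ → M} (hR : RH (E := E) U R) {w : M → E} (hw : Fld w) {m : ℕ}
    (hth : Thin ((dUT E M).on (Og U R w)) (dUT E M) (fun v => Hh R w (v, 1)) m) :
    Hom F (core (phi F) (Og U R w)) univ (Hh R w) m := by
  have hfl := isFlow_phi F hD hB hdiam
  have hsub : core (phi F) (Og U R w) ⊆ Og U R w := core_subset hfl
  refine ⟨opn_core (by positivity) hfl (opn_Og hR hw), fun v hv t => core_inv hfl hv t, ?_,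
    fun v hv s hs => Hh_nonpos hs, fun v hv s hs => ?_, ?_⟩
  · intro V _ _ _ u x hu
    refine ⟨map_Hh hR hw (u := u) ⟨⟨hu.1.1, hu.1.2.mono fun y hy => hsub hy⟩, hu.2⟩,
      Eventually.of_forall fun y => mem_univ _⟩
  · rw [Hh_one_le hs, Hh_one_le le_rfl]
  · exact (hth.subset hsub).on_on opn_univ fun v hv => mem_univ _

include hD hB hdiam hl in
/-- **(CO)**: small families of unit vectors are contracted -/
theorem exists_contr {z : V → UT E M} {T : Set V} (hz : ∀ s ∈ T, (dUT E M).At z s)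
    (hV : finrank ℝ V + 1 ≤ l) (hV' : finrank ℝ V + 2 < finrank ℝ E) (hlE : l < finrank ℝ E) :
    ∃ (O : Set (UT E M)) (H : UT E M × ℝ → UT E M), Hom F O univ H 0 ∧ ∀ s ∈ T, z s ∈ O := by
  obtain ⟨K, ⟨P⟩⟩ := X3.exists_pf (E := E) (M := M)
  obtain ⟨q, hq⟩ := exists_far F hD hB hdiam hl hlE
    (f := fun p : ℝ × V => foot (orb F z p)) (T := (univ : Set ℝ) ×ˢ T) (fun p hp => by
      have h1 : (dM E M).At (fun p : ℝ × V => foot (orb F z p)) p :=
        map_foot (at_orb F (hz p.2 hp.2) p.1)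
      exact Filter.Eventually.self_of_nhds h1) (by rw [finrank_prod, finrank_self]; omega)
  have hR := rh_Rb (E := E) F hD hB q
  obtain ⟨a, ha⟩ := exists_field P F hR hz (fun s hs t => hq (t, s) ⟨mem_univ _, hs⟩) hV'
  refine ⟨core (phi F) (Og (bl q D) (Rb e q) (se P a)), Hh (Rb e q) (se P a), ?_, ha⟩
  refine hom_of F hD hB hdiam hR (fld_se P a) ?_
  by_cases hne : nm (E := E) q (se P a q) = 0
  · refine ⟨fun {V} _ _ _ {u x} hu => ?_⟩
    exfalso
    have h1 := (hu.2.self_of_nhds : u x ∈ Og (bl q D) (Rb e q) (se P a)).2.2 0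
      ⟨le_rfl, zero_le_one⟩
    rw [Rb_zero F] at h1
    exact h1 hne
  · obtain ⟨x₀⟩ : Nonempty M := inferInstance
    have h0 : nm (E := E) q (se P a q) ≠ 0 := hne
    refine Thin.congr_on (f := fun _ => W.mk (E := E) q _ (nm_nz h0))
      (thin_const (at_constUT _ _)) fun v hv => ?_
    show _ = Hh (Rb e q) (se P a) (v, 1)
    rw [Hh_one_le le_rfl, Rb_zero F, nz_eq v h0]

include hD hB hdiam hl in
/-- **(TH)**: families of unit vectors of small dimension are pushed to a thin family -/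
theorem exists_push {z : V → UT E M} {T : Set V} (hz : ∀ s ∈ T, (dUT E M).At z s)
    (hV : finrank ℝ V + 2 < finrank ℝ E) :
    ∃ (O : Set (UT E M)) (H : UT E M × ℝ → UT E M),
      Hom F O univ H (finrank ℝ E - (l + 1)) ∧ ∀ s ∈ T, z s ∈ O := by
  obtain ⟨K, ⟨P⟩⟩ := X3.exists_pf (E := E) (M := M)
  obtain ⟨q, hq⟩ := exists_miss F hD hB
    (f := fun p : ℝ × V => foot (orb F z p)) (T := (univ : Set ℝ) ×ˢ T) (fun p hp => by
      have h1 : (dM E M).At (fun p : ℝ × V => foot (orb F z p)) p :=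
        map_foot (at_orb F (hz p.2 hp.2) p.1)
      exact Filter.Eventually.self_of_nhds h1) (by rw [finrank_prod, finrank_self]; omega)
  have hR := rh_Rt (E := E) F hD hB hdiam hl q
  obtain ⟨a, ha⟩ := exists_field P F hR hz (fun s hs t => hq (t, s) ⟨mem_univ _, hs⟩) hV
  refine ⟨core (phi F) (Og (pc q) (Rt e D q) (se P a)), Hh (Rt e D q) (se P a), ?_, ha⟩
  refine hom_of F hD hB hdiam hR (fld_se P a) ?_
  -- the factorisation through the cut locus
  have hN : Opn (dC e D q) {y | nm (E := E) y (se P a y) ≠ 0} := by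
    refine ⟨fun {V} _ _ _ {u x} hu hx => ?_⟩
    have h1 : (dM E M).At u x := map_dC F D q hu
    have h2 : ContMDiffAt 𝓘(ℝ, V) 𝓘(ℝ, E) ∞ u x := Filter.Eventually.self_of_nhds h1
    exact ev_ne ((fld_se P a).smV h2) hx
  rcases isEmpty_or_nonempty (UT E M) with hem | ⟨⟨v₀⟩⟩
  · refine ⟨fun {V} _ _ _ {u x} hu => ?_⟩
    exact (hem.false (u x)).elim
  · have h1 : Thin ((dC e D q).on {y | nm (E := E) y (se P a y) ≠ 0}) (dUT E M)
        (fun y => nz y (se P a y) v₀) (finrank ℝ E - (l + 1)) := by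
      refine thin_of_dimLE (dimLE_on (dimLE_dC F hD hB hdiam hl q) hN) ?_
      intro V _ _ _ u x hu
      have h1 : (dM E M).At u x := map_dC F D q hu.1
      exact at_nz (f := u) (a := fun y => se P a (u y)) (v₀ := fun _ => v₀)
        (by filter_upwards [h1] with y hy using (fld_se P a).smV hy) hu.2.self_of_nhds
    have h2 : ((dUT E M).on (Og (pc q) (Rt e D q) (se P a))).Map
        ((dC e D q).on {y | nm (E := E) y (se P a y) ≠ 0}) (fun v => cutPt e D q (foot v)) := by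
      intro V _ _ _ u x hu
      have k1 : (dM E M).At (fun s => foot (u s)) x := map_foot hu.1
      have k2 : ∀ᶠ y in 𝓝 x, foot (u y) ∈ pc q := hu.2.mono fun y hy => hy.1
      refine ⟨map_cut F hD hB hdiam hl q (u := fun s => foot (u s)) ⟨k1, k2⟩, ?_⟩
      filter_upwards [hu.2] with y hy
      have k3 := hy.2.2 0 ⟨le_rfl, zero_le_one⟩
      rw [Rt_zero F] at k3
      exact k3
    refine Thin.congr_on (f := fun v => nz (cutPt e D q (foot v)) (se P a (cutPt e D q (foot v))) v₀)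
      (h1.comp_right h2) fun v hv => ?_
    show _ = Hh (Rt e D q) (se P a) (v, 1)
    have k3 := hv.2.2 0 ⟨le_rfl, zero_le_one⟩
    rw [Rt_zero F] at k3
    rw [Hh_one_le le_rfl, Rt_zero F]
    exact nz_junk _ _ k3

end Exists

end

end Vale.Agent.P231.TH
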