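import Vale.Agent.P231.TH.Sph8
import Vale.Agent.P231.TH.Main
import Vale.Agent.P231.H584.BoxT

/-!
# P231, stage 3, S3-INT (S8): the box of the sphere of a line in the unit tangent bundle
-/

set_option maxSynthPendingDepth 3
set_option linter.unusedSectionVars false
set_option linter.unusedVariables false

open Bundle Manifold Set Filter Module MeasureTheory Metric
open scoped ContDiff Manifold Topology

namespace Vale.Agent.P231.TH

noncomputable section

open Vale.Agent.P231.CoC (Em bE)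

section Cube

/-- the cube -/
def cube (n : ℕ) : Set (Em n) :=
  (EuclideanSpace.equiv (Fin (2 * n + 2)) ℝ) ⁻¹' (Set.pi univ fun _ => Icc (-1 : ℝ) 1)

theorem mem_cube {n : ℕ} {x : Em n} : x ∈ cube n ↔ ∀ i, x i ∈ Icc (-1 : ℝ) 1 := by
  rw [cube, mem_preimage, mem_univ_pi]
  rfl

theorem isCompact_cube (n : ℕ) : IsCompact (cube n) :=
  ((EuclideanSpace.equiv (Fin (2 * n + 2)) ℝ).toHomeomorph.isCompact_preimage).2
    (isCompact_univ_pi fun _ => isCompact_Icc)

theorem convex_cube (n : ℕ) : Convex ℝ (cube n) :=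
  (convex_pi fun _ _ => convex_Icc (-1 : ℝ) 1).linear_preimage
    (EuclideanSpace.equiv (Fin (2 * n + 2)) ℝ).toLinearMap

theorem faces_cube (n : ℕ) : H584.Faces (cube n) := by
  refine ⟨⋃ i : Fin (2 * n + 2), {(EuclideanSpace.proj i, 1), (EuclideanSpace.proj i, -1)},
    Set.finite_iUnion fun i => by simp, ?_, ?_⟩
  · intro p hp h0
    obtain ⟨i, hi⟩ := mem_iUnion.1 hp
    have h1 : p.1 = EuclideanSpace.proj i := by
      rcases hi with rfl | rfl <;> rfl
    rw [h1] at h0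
    have h2 := DFunLike.congr_fun h0 (EuclideanSpace.single i (1 : ℝ))
    simp at h2
  · intro x hx
    by_contra hcon
    push Not at hcon
    have hxA : x ∈ cube n := by
      rw [← (isCompact_cube n).isClosed.closure_eq]
      exact frontier_subset_closure hx
    have h1 : ∀ i, x i ∈ Ioo (-1 : ℝ) 1 := by
      intro i
      have h2 := mem_cube.1 hxA i
      refine ⟨lt_of_le_of_ne h2.1 fun h => ?_, lt_of_le_of_ne h2.2 fun h => ?_⟩
      · exact hcon (EuclideanSpace.proj i, -1) (mem_iUnion.2 ⟨i, Or.inr rfl⟩) h.symm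
      · exact hcon (EuclideanSpace.proj i, 1) (mem_iUnion.2 ⟨i, Or.inl rfl⟩) h
    have h2 : IsOpen {y : Em n | ∀ i, y i ∈ Ioo (-1 : ℝ) 1} := by
      have : {y : Em n | ∀ i, y i ∈ Ioo (-1 : ℝ) 1} = ⋂ i, {y : Em n | y i ∈ Ioo (-1 : ℝ) 1} := by
        ext y
        simp
      rw [this]
      exact isOpen_iInter_of_finite fun i =>
        isOpen_Ioo.preimage (EuclideanSpace.proj (𝕜 := ℝ) i).continuous
    have h4 : {y : Em n | ∀ i, y i ∈ Ioo (-1 : ℝ) 1} ⊆ cube n := fun y hy =>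
      mem_cube.2 fun i => Ioo_subset_Icc_self (hy i)
    have h3 : x ∈ interior (cube n) := interior_maximal h4 h2 h1
    exact hx.2 h3

theorem ball_subset_cube (n : ℕ) : closedBall (0 : Em n) 1 ⊆ cube n := by
  intro x hx
  rw [mem_closedBall_zero_iff] at hx
  refine mem_cube.2 fun i => ?_
  have h1 : ‖x i‖ ≤ ‖x‖ := PiLp.norm_apply_le x i
  rw [Real.norm_eq_abs] at h1
  exact abs_le.1 (h1.trans hx)

end Cube

open Vale.Agent.P234 Vale.Agent.P231 Vale.Agent.P231.Fm Vale.Agent.P231.W Vale.Agent.P231.H775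
open Vale.Agent.P231.WE Vale.Agent.P231.FE Vale.Agent.P231.CoC
open Vale.Agent.P231.H584 (Bt)

variable {E : Type*} [NormedAddCommGroup E] [NormedSpace ℝ E] [FiniteDimensional ℝ E]
  {M : Type*} [MetricSpace M] [ChartedSpace E M] [IsManifold 𝓘(ℝ, E) ∞ M]
  [RiemannianBundle (fun x : M => TangentSpace 𝓘(ℝ, E) x)]
  [IsContMDiffRiemannianBundle 𝓘(ℝ, E) ∞ E (fun x : M => TangentSpace 𝓘(ℝ, E) x)]
  {e : ∀ x : M, TangentSpace 𝓘(ℝ, E) x → M}
  [CompactSpace M] [ConnectedSpace M] [IsRiemannianManifold 𝓘(ℝ, E) M]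

variable (F : Facts e) {D : ℝ} (hD : 0 < D) (hB : InjGE e D)
    (hdiam : ∀ p q : M, dist p q ≤ D) {p : M} {n : ℕ}
    (hl : ∀ x y : M, dist x y = D → finrank ℝ (Pl e D x y) = 2 * n + 2)
  {Pi : TangentSpace 𝓘(ℝ, E) p → TangentSpace 𝓘(ℝ, E) p →L[ℝ] TangentSpace 𝓘(ℝ, E) p}
  {o : TangentSpace 𝓘(ℝ, E) p → Fm.Lam (TangentSpace 𝓘(ℝ, E) p)}
  {ρ : TangentSpace 𝓘(ℝ, E) p → ℝ} {r₀ : ℝ}
    (hJ : LineP e D p n Pi o) (hρ : Rho e D p ρ r₀) (a : ℝ)
  {L : Em n →L[ℝ] TangentSpace 𝓘(ℝ, E) p} (hL : L ∈ FrS n Pi o)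

include F in
/-- a field without zeros on the sphere of the line -/
theorem exists_fieldS {K : ℕ} (P : X3.PF E M K) (hN : 2 * n + 2 < finrank ℝ E) :
    ∃ c : Fin K → ℝ, ∀ x : Em n,
      nm (E := E) (cS e D L x) (se P c (cS e D L x)) ≠ 0 := by
  have h1 := null_par P (V := Em n) (by rw [finrank_euclideanSpace_fin]; exact hN)
    (f := cS e D L) (u := fun _ => 0) (T := univ) (by
      intro x _
      have k5 : SmV (cS e D L) (fun x => ((0 : ℝ) • se P 0 (cS e D L x) : E)) x :=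
        SmV.smul contDiffAt_const (smV_se P (cd_cS D L F x) contDiffAt_const)
      refine k5.congr (Eventually.of_forall fun y => ?_)
      exact zero_smul ℝ _)
  obtain ⟨c, hc⟩ : ∃ c : Fin K → ℝ,
      c ∉ {c : Fin K → ℝ | ∃ x ∈ (univ : Set (Em n)), se P c (cS e D L x) = 0} := by
    by_contra hcon
    push Not at hcon
    have h2 : {c : Fin K → ℝ | ∃ x ∈ (univ : Set (Em n)), se P c (cS e D L x) = 0} = univ :=
      eq_univ_of_forall hcon
    rw [h2] at h1
    exact isOpen_univ.measure_ne_zero (volume : Measure (Fin K → ℝ)) univ_nonempty h1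
  exact ⟨c, fun x hx => hc ⟨x, mem_univ _, nm_eq_zero hx⟩⟩

section Box

variable {K : ℕ} (P : X3.PF E M K) {c : Fin K → ℝ}
  (hc : ∀ x : Em n, nm (E := E) (cS e D L x) (se P c (cS e D L x)) ≠ 0) (v₀ : UT E M)

/-- the lift of the sphere of the line -/
def zS (e : ∀ x : M, TangentSpace 𝓘(ℝ, E) x → M) (D : ℝ)
    (L : Em n →L[ℝ] TangentSpace 𝓘(ℝ, E) p) (P : X3.PF E M K) (c : Fin K → ℝ) (v₀ : UT E M)
    (x : Em n) : UT E M := nz (cS e D L x) (se P c (cS e D L x)) v₀

include hc in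
theorem foot_zS (x : Em n) : foot (zS e D L P c v₀ x) = cS e D L x := foot_nz v₀ (hc x)

include F hc in
theorem at_zS (x : Em n) : (dUT E M).At (zS e D L P c v₀) x :=
  at_nz (f := cS e D L) (a := fun x => se P c (cS e D L x)) (v₀ := fun _ => v₀)
    (Eventually.of_forall fun y => smV_se P (cd_cS D L F y) contDiffAt_const) (hc x)

include hJ hL in
theorem zS_out {x : Em n} (hx : 1 ≤ ‖x‖) :
    zS e D L P c v₀ x = nz (qS e D L) (se P c (qS e D L)) v₀ := by
  rw [zS, cS_out hJ hL hx]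

/-- the box of the sphere of the line -/
def S8 : Bt (dUT E M) where
  E := Em n
  N := 2 * n + 2
  b := (bE n).toBasis
  A := cube n
  cpt := isCompact_cube n
  cvx := convex_cube n
  faces := faces_cube n
  G := zS e D L P c v₀
  plot := at_zS F P hc v₀
  rng := by
    rintro _ ⟨x, rfl⟩
    by_cases hx : x ∈ closedBall (0 : Em n) 1
    · exact ⟨x, ball_subset_cube n hx, rfl⟩
    · rw [mem_closedBall_zero_iff, not_le] at hx
      refine ⟨bE n 0, ball_subset_cube n (by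
        rw [mem_closedBall_zero_iff, (bE n).norm_eq_one]), ?_⟩
      rw [zS_out hJ hL P v₀ hx.le, zS_out hJ hL P v₀ ((bE n).norm_eq_one 0).ge]

theorem S8_const {x : Em n} (hx : x ∉ closedBall (0 : Em n) 1) :
    ∀ᶠ y in 𝓝 x, (S8 F hJ hL P hc v₀).G y = (S8 F hJ hL P hc v₀).G x := by
  rw [mem_closedBall_zero_iff, not_le] at hx
  filter_upwards [continuous_norm.continuousAt.eventually (lt_mem_nhds hx)] with y hy
  change zS e D L P c v₀ y = zS e D L P c v₀ x
  rw [zS_out hJ hL P v₀ hx.le, zS_out hJ hL P v₀ (le_of_lt hy)]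

theorem S8_good : (S8 F hJ hL P hc v₀).Good (isFlow_phi F hD hB hdiam) :=
  Bt.good_of_const (B := S8 F hJ hL P hc v₀) (K := closedBall (0 : Em n) 1)
    (isCompact_closedBall _ _) (ball_subset_cube n)
    (fun x hx => S8_const F hJ hL P hc v₀ hx) (k := 2 * n) rfl _

theorem S8_L_d (w : Form (dUT E M)) : (S8 F hJ hL P hc v₀).L w.d = 0 :=
  Bt.L_d_of_const (B := S8 F hJ hL P hc v₀) (K := closedBall (0 : Em n) 1)
    (isCompact_closedBall _ _) (ball_subset_cube n)
    (fun x hx => S8_const F hJ hL P hc v₀ hx) (k := 2 * n) rfl w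

/-- **the value on `F`** -/
theorem S8_FF : (S8 F hJ hL P hc v₀).L (Form.pull foot map_foot (FF F hD hB hdiam hl hJ hρ a)) =
    a * ((2 * n + 1).factorial : ℝ) * sv (Em n) := by
  rw [← integral_cS F hD hB hdiam hl hJ hρ a hL v₀, Bt.L_int]
  have hm : (S8 F hJ hL P hc v₀).b.addHaar = (volume : Measure (Em n)) :=
    (bE n).addHaar_eq_volume
  rw [hm]
  set G := FF F hD hB hdiam hl hJ hρ a with hG
  have hGk : Form.IsDeg (2 * n + 1 + 1) G := FF_isDeg F hD hB hdiam hl hJ hρ a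
  have h1 : ∀ x : Em n, (Form.pull foot map_foot G).val (zS e D L P c v₀) x =
      G.val (cS e D L) x := by
    intro x
    rw [Form.pull_val _ _ (at_zS F P hc v₀ x)]
    congr 1
    funext y
    exact foot_zS P hc v₀ y
  change ∫ x in cube n, evalForm ((Form.pull foot map_foot G).val (zS e D L P c v₀) x)
    (bE n).toBasis = _
  simp only [h1, OrthonormalBasis.coe_toBasis]
  refine setIntegral_eq_integral_of_forall_compl_eq_zero fun x hx => ?_
  have hx1 : x ∉ closedBall (0 : Em n) 1 := fun h => hx (ball_subset_cube n h)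
  rw [mem_closedBall_zero_iff, not_le] at hx1
  have h2 : G.val (cS e D L) x = 0 := by
    refine val_const hGk (c := qS e D L)
      (map_cS D L F (u := id) (Sm.of_contDiff contDiff_id x)) ?_
    filter_upwards [continuous_norm.continuousAt.eventually (lt_mem_nhds hx1)] with y hy
    exact cS_out hJ hL (le_of_lt hy)
  rw [h2, Q.evalForm_zero]

theorem S8_sq : (S8 F hJ hL P hc v₀).L (Form.pull foot map_foot (FF F hD hB hdiam hl hJ hρ a)) ^ 2 =
    FE.kap n a ^ 2 := by
  rw [S8_FF, FE.kap, sv, finrank_euclideanSpace_fin, mul_pow, mul_pow |a * _|, sq_abs]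

end Box

include hD hB hdiam hl hρ in
/-- **(S8)** the start of the second tower -/
theorem exists_S8 (hJ : LineP e D p n Pi o) (hN : 2 * n + 2 < finrank ℝ E) :
    ∃ B : Bt (dUT E M), B.N = 2 * n + 2 ∧ B.Good (isFlow_phi F hD hB hdiam) ∧
      (∀ w : Form (dUT E M), B.L w.d = 0) ∧
      B.L (Form.pull foot map_foot (FF F hD hB hdiam hl hJ hρ a)) ^ 2 = FE.kap n a ^ 2 := by
  obtain ⟨K, ⟨P⟩⟩ := X3.exists_pf (E := E) (M := M)
  obtain ⟨v₀, hv₀⟩ : ∃ v : UT E M, foot v = p := by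
    obtain ⟨u, hu⟩ : ∃ u : TangentSpace 𝓘(ℝ, E) p, ‖u‖ = 1 := by
      have : Nontrivial (TangentSpace 𝓘(ℝ, E) p) := by
        have : Nontrivial E := nontrivial_of_finrank_pos (R := ℝ) (by omega)
        exact this
      exact exists_norm_eq _ zero_le_one
    exact ⟨W.mk (E := E) p u hu, rfl⟩
  have hv1 : ‖vp p v₀‖ = 1 := norm_vp hv₀
  obtain ⟨L, hL⟩ := exists_FrS hJ.os hv1
  obtain ⟨c, hc⟩ := exists_fieldS (D := D) (L := L) F P hN
  exact ⟨S8 F hJ hL P hc v₀, rfl, S8_good F hD hB hdiam hJ hL P hc v₀,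
    S8_L_d F hJ hL P hc v₀, S8_sq F hD hB hdiam hl hJ hρ a hL P hc v₀⟩

end

end Vale.Agent.P231.TH
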