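import Vale.Agent.P231.TH.Open

/-!
# P231, stage 3, S3-INT (TH 5): thin maps
-/

set_option linter.unusedSectionVars false
set_option linter.unusedVariables false

open Set Filter Module
open scoped Topology

namespace Vale.Agent.P231.TH

open Vale.Agent.P231.Fm Vale.Agent.P231.W Vale.Agent.P231.WA

section Abstract

variable {X Y Z : Type*} {D : Dif X} {D' : Dif Y} {D'' : Dif Z}

/-- `f` factors locally, on every plot, through plots of dimension at most `m` -/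
structure Thin (D : Dif X) (D' : Dif Y) (f : X → Y) (m : ℕ) : Prop where
  /-- the factorisation -/
  fac : ∀ {V : Type} [NormedAddCommGroup V] [NormedSpace ℝ V] [FiniteDimensional ℝ V]
    {u : V → X} {x : V}, D.At u x → ∃ (F : Type) (_ : NormedAddCommGroup F)
      (_ : NormedSpace ℝ F) (_ : FiniteDimensional ℝ F) (v : F → Y) (g : V → F),
      finrank ℝ F ≤ m ∧ Sm g x ∧ D'.At v (g x) ∧ (fun y => f (u y)) =ᶠ[𝓝 x] v ∘ g

variable {f : X → Y} {m : ℕ}

theorem Thin.map (h : Thin D D' f m) : D.Map D' f := by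
  intro V _ _ _ u x hu
  obtain ⟨F, _, _, _, v, g, -, hg, hv, he⟩ := h.fac hu
  exact D'.congr (D'.comp hv hg) he.symm

theorem Thin.pull_eq_zero (h : Thin D D' f m) (hf : D.Map D' f) {k : ℕ} (hk : m < k) {w : Form D'}
    (hw : Form.IsDeg k w) : Form.pull f hf w = 0 := by
  rw [← (hw.pull f hf).part_eq]
  refine Form.ext_val fun V _ _ _ u x hu => ?_
  obtain ⟨F, _, _, _, v, g, hF, hg, hv, he⟩ := h.fac hu
  rw [Form.part_val, Form.pull_val hf w hu, w.congr (hf hu) he, w.nat hv hg, prt_pull,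
    prt_eq_zero (by omega), map_zero]
  rfl

theorem Thin.comp_left (h : Thin D D' f m) {g : Y → Z} (hg : D'.Map D'' g) :
    Thin D D'' (fun x => g (f x)) m := by
  refine ⟨fun {V} _ _ _ {u x} hu => ?_⟩
  obtain ⟨F, i1, i2, i3, v, g', hF, hg', hv, he⟩ := h.fac hu
  refine ⟨F, i1, i2, i3, fun z => g (v z), g', hF, hg', hg hv, ?_⟩
  filter_upwards [he] with y hy
  exact congrArg g hy

theorem Thin.comp_right {D₀ : Dif Z} (h : Thin D D' f m) {g : Z → X} (hg : D₀.Map D g) :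
    Thin D₀ D' (fun x => f (g x)) m := by
  refine ⟨fun {V} _ _ _ {u x} hu => ?_⟩
  exact h.fac (u := fun y => g (u y)) (hg hu)

theorem thin_of_dimLE (h : DimLE D m) (hf : D.Map D' f) : Thin D D' f m := by
  refine ⟨fun {V} _ _ _ {u x} hu => ?_⟩
  obtain ⟨F, i1, i2, i3, v, g, hF, hg, hv, he⟩ := h hu
  refine ⟨F, i1, i2, i3, fun z => f (v z), g, hF, hg, hf hv, ?_⟩
  filter_upwards [he] with y hy
  exact congrArg f hy

theorem Thin.mono (h : Thin D D' f m) {m' : ℕ} (hm : m ≤ m') : Thin D D' f m' := by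
  refine ⟨fun {V} _ _ _ {u x} hu => ?_⟩
  obtain ⟨F, i1, i2, i3, v, g, hF, hg, hv, he⟩ := h.fac hu
  exact ⟨F, i1, i2, i3, v, g, hF.trans hm, hg, hv, he⟩

theorem Thin.to_on (h : Thin D D' f m) {O : Set Y} (hO : Opn D' O) (hm : ∀ x, ∀ {V : Type}
    [NormedAddCommGroup V] [NormedSpace ℝ V] [FiniteDimensional ℝ V] {u : V → X} {y : V},
    D.At u y → u y = x → f x ∈ O) : Thin D (D'.on O) f m := by
  refine ⟨fun {V} _ _ _ {u x} hu => ?_⟩
  obtain ⟨F, i1, i2, i3, v, g, hF, hg, hv, he⟩ := h.fac hu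
  refine ⟨F, i1, i2, i3, v, g, hF, hg, hO.at_on hv ?_, he⟩
  have h1 : f (u x) = v (g x) := he.self_of_nhds
  rw [← h1]
  exact hm (u x) hu rfl

/-- the thin maps from an open set into an open set -/
theorem Thin.on_on {O₁ : Set X} (h : Thin (D.on O₁) D' f m) {O : Set Y} (hO : Opn D' O)
    (hm : ∀ x ∈ O₁, f x ∈ O) : Thin (D.on O₁) (D'.on O) f m := by
  refine ⟨fun {V} _ _ _ {u x} hu => ?_⟩
  obtain ⟨F, i1, i2, i3, v, g, hF, hg, hv, he⟩ := h.fac hu
  refine ⟨F, i1, i2, i3, v, g, hF, hg, hO.at_on hv ?_, he⟩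
  have h1 : f (u x) = v (g x) := he.self_of_nhds
  rw [← h1]
  exact hm (u x) hu.2.self_of_nhds

theorem Thin.congr_on {O₁ : Set X} {g : X → Y} (h : Thin (D.on O₁) D' f m)
    (hfg : ∀ x ∈ O₁, f x = g x) : Thin (D.on O₁) D' g m := by
  refine ⟨fun {V} _ _ _ {u x} hu => ?_⟩
  obtain ⟨F, i1, i2, i3, v, g', hF, hg, hv, he⟩ := h.fac hu
  refine ⟨F, i1, i2, i3, v, g', hF, hg, hv, ?_⟩
  filter_upwards [he, hu.2] with y hy h1
  rw [← hy]
  exact (hfg _ h1).symm

theorem Thin.subset {O₁ O₂ : Set X} (h : Thin (D.on O₁) D' f m) (hs : O₂ ⊆ O₁) :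
    Thin (D.on O₂) D' f m := by
  refine ⟨fun {V} _ _ _ {u x} hu => ?_⟩
  exact h.fac ⟨hu.1, hu.2.mono fun y hy => hs hy⟩

theorem thin_const {c : Y} (hc : D'.At (fun _ : Fin 0 → ℝ => c) 0) :
    Thin D D' (fun _ => c) 0 := by
  refine ⟨fun {V} _ _ _ {u x} hu => ?_⟩
  refine ⟨Fin 0 → ℝ, inferInstance, inferInstance, inferInstance, fun _ => c, fun _ => 0, ?_, ?_,
    hc, ?_⟩
  · simp
  · exact Sm.of_contDiff contDiff_const _
  · exact Eventually.of_forall fun _ => rfl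

theorem dimLE_on (h : DimLE D m) {O : Set X} (hO : Opn D O) : DimLE (D.on O) m := by
  intro V _ _ _ u x hu
  obtain ⟨F, i1, i2, i3, v, g, hF, hg, hv, he⟩ := h hu.1
  refine ⟨F, i1, i2, i3, v, g, hF, hg, hO.at_on hv ?_, he⟩
  have h1 : u x = v (g x) := he.self_of_nhds
  rw [← h1]
  exact hu.2.self_of_nhds

end Abstract

end Vale.Agent.P231.TH
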