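import Vale.Agent.P231.TH.Twr
import Vale.Agent.P231.TH.S8

/-!
# P231, stage 3, S3-INT (TWR 2): the first tower with a prescribed fourth step, the second tower
-/

set_option maxSynthPendingDepth 3
set_option linter.unusedSectionVars false
set_option linter.unusedVariables false

open Bundle Manifold Set Filter Module MeasureTheory
open scoped ContDiff Manifold Topology

namespace Vale.Agent.P231.TH

noncomputable section

open Vale.Agent.P234 Vale.Agent.P231 Vale.Agent.P231.Fm Vale.Agent.P231.W Vale.Agent.P231.H775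
open Vale.Agent.P231.H584 (Bt ThinMap)

variable {E : Type*} [NormedAddCommGroup E] [NormedSpace ℝ E] [FiniteDimensional ℝ E]
  {M : Type*} [MetricSpace M] [ChartedSpace E M] [IsManifold 𝓘(ℝ, E) ∞ M]
  [RiemannianBundle (fun x : M => TangentSpace 𝓘(ℝ, E) x)]
  [IsContMDiffRiemannianBundle 𝓘(ℝ, E) ∞ E (fun x : M => TangentSpace 𝓘(ℝ, E) x)]
  [CompactSpace M] [ConnectedSpace M] [IsRiemannianManifold 𝓘(ℝ, E) M]
  {e : ∀ x : M, TangentSpace 𝓘(ℝ, E) x → M}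
variable (F : Facts e) {D : ℝ} (hD : 0 < D) (hB : InjGE e D)
    (hdiam : ∀ p q : M, dist p q ≤ D) {l : ℕ}
    (hl : ∀ x y : M, dist x y = D → finrank ℝ (Pl e D x y) = l + 1)
variable {α : Form (dUT E M)}
    (hα : Form.pull (phi F) (isFlow_phi F hD hB hdiam).map α = pr α + dt) (hαo : α.sg = -α)

include hl hα hαo in
/-- **the first tower with a prescribed fourth step**: `lift` produces from the box of dimension
`6` the box of dimension `8`, with an additional property `Q` -/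
theorem tower_via (hl7 : l = 7) (hN : finrank ℝ E = 16) {Q : Bt (dUT E M) → Prop}
    (lift : ∀ B : Bt (dUT E M), B.Good (isFlow_phi F hD hB hdiam) → B.N = 6 →
      ∃ B' : Bt (dUT E M), B'.Good (isFlow_phi F hD hB hdiam) ∧
        Bt.Ch (isFlow_phi F hD hB hdiam) ((2 * D)⁻¹ • α.d) B B' 1 ∧ Q B') :
    ∃ (B2 B4 B6 : Bt (dUT E M)), B2.Good (isFlow_phi F hD hB hdiam) ∧
      B4.Good (isFlow_phi F hD hB hdiam) ∧ B6.Good (isFlow_phi F hD hB hdiam) ∧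
      B2.N = 4 ∧ B4.N = 8 ∧ B6.N = 12 ∧ Q B4 ∧
      Bt.Ch (isFlow_phi F hD hB hdiam) ((2 * D)⁻¹ • α.d) B2 B4 2 ∧
      Bt.Ch (isFlow_phi F hD hB hdiam) ((2 * D)⁻¹ • α.d) B4 B6 2 ∧
      B2.L (((2 * D)⁻¹ • α.d) ^ 2) = 1 ∧ B4.L (((2 * D)⁻¹ • α.d) ^ 4) = 1 ∧
      B6.L (((2 * D)⁻¹ • α.d) ^ 6) = 1 := by
  have hT : 2 * D ≠ 0 := by positivity
  have hne : Nonempty (UT E M) := by
    have : Nontrivial E := nontrivial_of_finrank_pos (R := ℝ) (by omega)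
    obtain ⟨x⟩ : Nonempty M := inferInstance
    have : Nontrivial (TangentSpace 𝓘(ℝ, E) x) := inferInstanceAs (Nontrivial E)
    obtain ⟨u, hu⟩ : ∃ u : TangentSpace 𝓘(ℝ, E) x, ‖u‖ = 1 := exists_norm_eq _ zero_le_one
    exact ⟨W.mk (E := E) x u hu⟩
  obtain ⟨v⟩ := hne
  set h := isFlow_phi F hD hB hdiam with hh
  set ε : Form (dUT E M) := (2 * D)⁻¹ • α.d with hε
  have hed : ε.d = 0 := by rw [hε, Form.d_smul, Form.d_d, smul_zero]
  have hes : ε.sg = ε := by rw [hε, Form.sg_smul, H584.d_even hαo]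
  have heb : Basic (phi F) h.map ε := H584.Basic.smul _ (H584.basic_d_contact h hα)
  obtain ⟨B, hB0, ht, htN, ht1⟩ := tower_one F hD hB hdiam hl hα hαo hl7 hN v
  obtain ⟨B4, k1, k2, k3⟩ := lift (B 3) (ht.good 3 (by omega)) (by rw [htN 3 (by omega)])
  have kN : B4.N = 8 := by rw [k2.N, htN 3 (by omega)]
  obtain ⟨C, hC0, hC⟩ := exists_tower F hD hB hdiam hl hα hαo B4 k1 2 (fun i hi => by
      rw [kN, hN, hl7]
      omega)
  have c24 : Bt.Ch h ε (B 2) B4 2 := Bt.Ch.trans hed hes heb (ht.ch 2 3 (by omega) (by omega)) k2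
  have c04 : Bt.Ch h ε (B 0) B4 4 := Bt.Ch.trans hed hes heb (ht.ch 0 3 (by omega) (by omega)) k2
  have c46 : Bt.Ch h ε B4 (C 2) 2 := by
    have := hC.ch 0 2 (by omega) le_rfl
    rwa [hC0] at this
  have c06 : Bt.Ch h ε (B 0) (C 2) 6 := Bt.Ch.trans hed hes heb c04 c46
  have h01 : (B 0).L 1 = 1 := by
    rw [hB0]
    exact Bt.pt_one v (at_pt v)
  refine ⟨B 2, B4, C 2, ht.good 2 (by omega), k1, hC.good 2 le_rfl, htN 2 (by omega), kN, ?_, k3,
    c24, c46, ht1 2 (by omega), ?_, ?_⟩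
  · rw [c46.N, kN]
  · rw [c04.one hed heb, h01]
  · rw [c06.one hed heb, h01]

section Second

open Vale.Agent.P231.CoC Vale.Agent.P231.FE Vale.Agent.P231.WE

variable {p : M}
  (hl' : ∀ x y : M, dist x y = D → finrank ℝ (Pl e D x y) = 2 * 3 + 2)
  {Pi : TangentSpace 𝓘(ℝ, E) p → TangentSpace 𝓘(ℝ, E) p →L[ℝ] TangentSpace 𝓘(ℝ, E) p}
  {o : TangentSpace 𝓘(ℝ, E) p → Fm.Lam (TangentSpace 𝓘(ℝ, E) p)}
  {ρ : TangentSpace 𝓘(ℝ, E) p → ℝ} {r₀ : ℝ} (hρ : Rho e D p ρ r₀) (a : ℝ)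

include hα hαo in
/-- **the second tower**: over the sphere of the line -/
theorem tower_sph (hN : finrank ℝ E = 16) (hJ : LineP e D p 3 Pi o) :
    ∃ (B4 B6 : Bt (dUT E M)), B4.Good (isFlow_phi F hD hB hdiam) ∧
      B6.Good (isFlow_phi F hD hB hdiam) ∧ B4.N = 8 ∧ B6.N = 12 ∧
      Bt.Ch (isFlow_phi F hD hB hdiam) ((2 * D)⁻¹ • α.d) B4 B6 2 ∧
      (∀ w : Form (dUT E M), B4.L w.d = 0) ∧
      B4.L (Form.pull foot map_foot (FF F hD hB hdiam hl' hJ hρ a)) ^ 2 = FE.kap 3 a ^ 2 ∧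
      B6.L (((2 * D)⁻¹ • α.d) ^ 6) = 0 := by
  obtain ⟨B₀, h1, h2, h3, h4⟩ := exists_S8 F hD hB hdiam hl' hρ a hJ (by omega)
  obtain ⟨B, k0, k1, k2, k3⟩ := tower_two F hD hB hdiam (l := 7) hl' hα hαo rfl hN B₀ h2 h1 h3
  refine ⟨B₀, B 2, h2, k1.good 2 (by omega), h1, k2 2 (by omega), ?_, h3, h4, k3 2 (by omega)⟩
  have := k1.ch 0 2 (by omega) (by omega)
  rwa [k0] at this

end Second

end

end Vale.Agent.P231.TH
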