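import Vale.Agent.P231.L3.Inst7b
import Vale.Agent.P231.TH.Twr2
import Vale.Agent.P231.H584.Asm

/-!
# P231, stage 3, S3-INT: the integrality statements on the unit tangent bundle (concrete side)
-/

set_option maxSynthPendingDepth 3
set_option linter.unusedSectionVars false
set_option linter.unusedVariables false

open Bundle Manifold Set Filter Module MeasureTheory
open scoped ContDiff Manifold Topology ENNReal Real

namespace Vale.Agent.P231.TH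

noncomputable section

open Vale.Agent.P234 Vale.Agent.P231 Vale.Agent.P231.Fm Vale.Agent.P231.W Vale.Agent.P231.WR
  Vale.Agent.P231.H766 Vale.Agent.P231.WG Vale.Agent.P231.S2II Vale.Agent.P231.WQ
  Vale.Agent.P231.L3
open Vale.Agent.P231.H584 (Bt ThinMap)

variable {E : Type*} [NormedAddCommGroup E] [NormedSpace ℝ E]
  {M : Type*} [MetricSpace M] [ChartedSpace E M]
  [RiemannianBundle (fun x : M => TangentSpace 𝓘(ℝ, E) x)]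
  {e : ∀ x : M, TangentSpace 𝓘(ℝ, E) x → M}
  [FiniteDimensional ℝ E] [IsManifold 𝓘(ℝ, E) ∞ M]
  [IsContMDiffRiemannianBundle 𝓘(ℝ, E) ∞ E (fun x : M => TangentSpace 𝓘(ℝ, E) x)]
  [CompactSpace M] [ConnectedSpace M] [IsRiemannianManifold 𝓘(ℝ, E) M]
  (F : Facts e) {D : ℝ} (hD : 0 < D) (hB : InjGE e D) (hdiam : ∀ p q : M, dist p q ≤ D)

section gen

variable {m n N : ℕ} [MeasurableSpace M] [BorelSpace M]
  (hl : ∀ x y : M, dist x y = D → finrank ℝ (H775.Pl e D x y) = 2 * m + 2)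
  (hN : finrank ℝ E = N + 1) (hE : N + 1 = (2 * m + 2) * (n + 1))
  {p : M}
  {Pi : TangentSpace 𝓘(ℝ, E) p → TangentSpace 𝓘(ℝ, E) p →L[ℝ] TangentSpace 𝓘(ℝ, E) p}
  {o : TangentSpace 𝓘(ℝ, E) p → Fm.Lam (TangentSpace 𝓘(ℝ, E) p)}
  {ρ : TangentSpace 𝓘(ℝ, E) p → ℝ} {r₀ : ℝ}
  (hJ : FE.LineP e D p m Pi o) (hρ : WE.Rho e D p ρ r₀) {a : ℝ} (ha : a ≠ 0)
  {Lm : Pr e D × ℝ → Pr e D} {Y : Pr e D → E} {ε₀ : ℝ} (hL : PushL F hD hB hdiam Lm Y ε₀)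
  (g : Pr e D × ℝ → M) (hg : ((dPr e D).prod (Dif.lin ℝ)).Map (dM E M) g)
  (hg0 : ∀ b, g (b, 0) = foot b.v) (hg1 : ∀ b t, g (Lm (b, t), 1) = g (b, 1))
  {R : ℝ} (X : Fr e p R) (v0 : UT E M) {r : Eu E → ℝ} {K : Set (Eu E)} (hr : Q.Cut r K)
  (hDR : D < R) (b : OrthonormalBasis (Fin (N + 1)) ℝ (Eu E))

/-- the constant `k` of the system is `2 κ` -/
theorem inst_k : (inst F hD hB hdiam hl hN hE hJ hρ ha hL g hg hg0 hg1 X v0 hr hDR b).k =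
    2 * FE.kap m a := by
  have h1 : S2II.SL F hD hB hdiam (l := 2 * m + 1) hl
      (S2II.orn_b0P F hD hB hdiam (two_le hN hE) hl hJ hρ ha) ⟨m, rfl⟩
      (b0P F hD hB hdiam (FE.FF F hD hB hdiam hl hJ hρ a)) =
      (inst F hD hB hdiam hl hN hE hJ hρ ha hL g hg hg0 hg1 X v0 hr hDR b).k • 1 :=
    (inst F hD hB hdiam hl hN hE hJ hρ ha hL g hg hg0 hg1 X v0 hr hDR b).hk0
  have h2 := S2II.SL_b0P F hD hB hdiam (two_le hN hE) hl hJ hρ ha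
  rw [h1] at h2
  have h3 := congrArg (Bt.pt v0 (at_pt v0)).L h2
  rw [map_smul, map_smul, Bt.pt_one, smul_eq_mul, smul_eq_mul, mul_one, mul_one] at h3
  exact h3

theorem inst_k_sq :
    (inst F hD hB hdiam hl hN hE hJ hρ ha hL g hg hg0 hg1 X v0 hr hDR b).k ^ 2 =
      4 * FE.kap m a ^ 2 := by
  rw [inst_k]
  ring

end gen

section seven

variable [MeasurableSpace M] [BorelSpace M]
  (hl : ∀ x y : M, dist x y = D → finrank ℝ (H775.Pl e D x y) = 2 * 3 + 2)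
  (hN : finrank ℝ E = 15 + 1) (hE : 15 + 1 = (2 * 3 + 2) * (1 + 1))
  {p : M}
  {Pi : TangentSpace 𝓘(ℝ, E) p → TangentSpace 𝓘(ℝ, E) p →L[ℝ] TangentSpace 𝓘(ℝ, E) p}
  {o : TangentSpace 𝓘(ℝ, E) p → Fm.Lam (TangentSpace 𝓘(ℝ, E) p)}
  {ρ : TangentSpace 𝓘(ℝ, E) p → ℝ} {r₀ : ℝ}
  (hJ : FE.LineP e D p 3 Pi o) (hρ : WE.Rho e D p ρ r₀) {a : ℝ} (ha : a ≠ 0)
  {Lm : Pr e D × ℝ → Pr e D} {Y : Pr e D → E} {ε₀ : ℝ} (hL : PushL F hD hB hdiam Lm Y ε₀)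
  (g : Pr e D × ℝ → M) (hg : ((dPr e D).prod (Dif.lin ℝ)).Map (dM E M) g)
  (hg0 : ∀ b, g (b, 0) = foot b.v) (hg1 : ∀ b t, g (Lm (b, t), 1) = g (b, 1))
  {R : ℝ} (X : Fr e p R) (v0 : UT E M) {r : Eu E → ℝ} {K : Set (Eu E)} (hr : Q.Cut r K)
  (hDR : D < R) (b : OrthonormalBasis (Fin (15 + 1)) ℝ (Eu E))

/-- **the two integrality statements of S3-INT**, from: the fourth step of the first tower
(`lift`, with the property `Qb` of the box), the value of `P (b₁ G₁)` on the boxes with `Qb`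
(`hm`), the Pontryagin forms `p₁`, `p₂`, `p₃` of the null plane bundle and their numbers on good
boxes (`seg`) -/
theorem ints_inst (hP : (inst F hD hB hdiam hl hN hE hJ hρ ha hL g hg hg0 hg1 X v0 hr hDR b).PP)
    {a' μ : ℝ} {σ : Form (dPr e D)}
    (hσ : Basic (inst F hD hB hdiam hl hN hE hJ hρ ha hL g hg hg0 hg1 X v0 hr hDR b).φ
      (inst F hD hB hdiam hl hN hE hJ hρ ha hL g hg hg0 hg1 X v0 hr hDR b).hφ.map σ)
    (hrel : (inst F hD hB hdiam hl hN hE hJ hρ ha hL g hg hg0 hg1 X v0 hr hDR b).b1 ^ 2 =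
      a' • (inst F hD hB hdiam hl hN hE hJ hρ ha hL g hg hg0 hg1 X v0 hr hDR b).e ^ 6 +
      μ • ((inst F hD hB hdiam hl hN hE hJ hρ ha hL g hg hg0 hg1 X v0 hr hDR b).e ^ 2 *
        ((inst F hD hB hdiam hl hN hE hJ hρ ha hL g hg hg0 hg1 X v0 hr hDR b).G1 +
          (inst F hD hB hdiam hl hN hE hJ hρ ha hL g hg hg0 hg1 X v0 hr hDR b).G2)) + σ.d)
    {ε : ℝ} (hε : ε ^ 2 = 1) {ℓ : Form (dPr e D)}
    (hℓ : (inst F hD hB hdiam hl hN hE hJ hρ ha hL g hg hg0 hg1 X v0 hr hDR b).b1 =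
      ε • (inst F hD hB hdiam hl hN hE hJ hρ ha hL g hg hg0 hg1 X v0 hr hDR b).b0 + ℓ.d)
    {p1 p2 p3 : Form (dUT E M)}
    (c1 : (inst F hD hB hdiam hl hN hE hJ hρ ha hL g hg hg0 hg1 X v0 hr hDR b).CE p1)
    (c2 : (inst F hD hB hdiam hl hN hE hJ hρ ha hL g hg hg0 hg1 X v0 hr hDR b).CE p2)
    (c3 : (inst F hD hB hdiam hl hN hE hJ hρ ha hL g hg hg0 hg1 X v0 hr hDR b).CE p3) {a₁ : ℝ}
    (h1 : H584.Eqv (isFlow_phi F hD hB hdiam).map p1 (a₁ • ((2 * D)⁻¹ • (CV.alpha E M).d) ^ 2))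
    {s : ℝ} (hs : s ^ 2 = 1)
    (hp : H584.Eqv (inst F hD hB hdiam hl hN hE hJ hρ ha hL g hg hg0 hg1 X v0 hr hDR b).hφ.map
      ((inst F hD hB hdiam hl hN hE hJ hρ ha hL g hg hg0 hg1 X v0 hr hDR b).b1 ^ 2)
      ((s * FE.kap 3 a ^ 2) • Form.pull
        (inst F hD hB hdiam hl hN hE hJ hρ ha hL g hg hg0 hg1 X v0 hr hDR b).pi
        (inst F hD hB hdiam hl hN hE hJ hρ ha hL g hg hg0 hg1 X v0 hr hDR b).hpi p3))
    (seg : ∀ B : Bt (dUT E M), B.Good (isFlow_phi F hD hB hdiam) →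
      (B.N = 4 → (inst F hD hB hdiam hl hN hE hJ hρ ha hL g hg hg0 hg1 X v0 hr hDR b).Z2
        B.L p1) ∧
      (B.N = 8 → (inst F hD hB hdiam hl hN hE hJ hρ ha hL g hg hg0 hg1 X v0 hr hDR b).Z4
        B.L p1 p2) ∧
      (B.N = 12 → (inst F hD hB hdiam hl hN hE hJ hρ ha hL g hg hg0 hg1 X v0 hr hDR b).Z6
        B.L p1 p2 p3))
    {Qb : Bt (dUT E M) → Prop}
    (lift : ∀ B : Bt (dUT E M), B.Good (isFlow_phi F hD hB hdiam) → B.N = 6 →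
      ∃ B' : Bt (dUT E M), B'.Good (isFlow_phi F hD hB hdiam) ∧
        Bt.Ch (isFlow_phi F hD hB hdiam) ((2 * D)⁻¹ • (CV.alpha E M).d) B B' 1 ∧ Qb B')
    (hm : ∀ B : Bt (dUT E M), B.Good (isFlow_phi F hD hB hdiam) → Qb B → ∃ m : ℤ,
      B.L ((inst F hD hB hdiam hl hN hE hJ hρ ha hL g hg hg0 hg1 X v0 hr hDR b).P
        ((inst F hD hB hdiam hl hN hE hJ hρ ha hL g hg hg0 hg1 X v0 hr hDR b).b1 *
          (inst F hD hB hdiam hl hN hE hJ hρ ha hL g hg hg0 hg1 X v0 hr hDR b).G1)) =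
        FE.kap 3 a ^ 2 * m) :
    (∃ n : ℤ, 2 * μ / FE.kap 3 a = n) ∧
      ∃ n m : ℤ, a' / FE.kap 3 a ^ 2 = n + μ / FE.kap 3 a * m := by
  have hα := CV.pull_phi_alpha (E := E) (M := M) F
  have hαo : (CV.alpha E M).sg = -CV.alpha E M := CV.isDeg_alpha.sg_of_odd (by norm_num)
  have hN16 : finrank ℝ E = 16 := hN
  obtain ⟨B2, B4, B6, g2, g4, g6, n2, n4, n6, hQ, c24, c46, e2, e4, e6⟩ :=
    tower_via F hD hB hdiam (l := 7) hl hα hαo rfl hN16 lift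
  obtain ⟨B4', B6', g4', g6', n4', n6', c46', hd', hx', e6'⟩ :=
    tower_sph F hD hB hdiam hα hαo hl hρ a hN16 hJ
  obtain ⟨m, hm⟩ := hm B4 g4 hQ
  have hkap := FE.kap_pos (a := a) 3 ha
  obtain ⟨⟨N', m', -, k1⟩, k2⟩ := H584.Sys.int_asm
    (S := inst F hD hB hdiam hl hN hE hJ hρ ha hL g hg hg0 hg1 X v0 hr hDR b) hP
    (S2II.isDeg_FF F hD hB hdiam hl hJ hρ a) hσ hrel hε hℓ hkap
    (inst_k_sq F hD hB hdiam hl hN hE hJ hρ ha hL g hg hg0 hg1 X v0 hr hDR b)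
    c1 c2 c3 h1 hs hp g2 g4 g6 c24 c46 e2 ((seg B2 g2).1 n2) ((seg B4 g4).2.1 n4)
    ((seg B6 g6).2.2 n6) hm g4' g6' c46' hd' hx' e6' ((seg B4' g4').2.1 n4')
    ((seg B6' g6').2.2 n6')
  exact ⟨k2, N', m', k1⟩

end seven

end

end Vale.Agent.P231.TH
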