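import Vale.Agent.P231.TH.Hm
import Vale.Agent.P231.H649.Null

/-!
# P231, stage 3, S3-INT (TH 4): general position
-/

set_option maxSynthPendingDepth 3
set_option linter.unusedSectionVars false
set_option linter.unusedVariables false

open Bundle Manifold Set Filter Module MeasureTheory
open scoped ContDiff Manifold Topology

namespace Vale.Agent.P231.TH

noncomputable section

open Vale.Agent.P234 Vale.Agent.P231 Vale.Agent.P231.Fm Vale.Agent.P231.W Vale.Agent.P231.WR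
open Vale.Agent.P231.H775 Vale.Agent.P231.CoC Vale.Agent.P231.WF Vale.Agent.P231.WE

variable {E : Type*} [NormedAddCommGroup E] [NormedSpace ℝ E] [FiniteDimensional ℝ E]
  {M : Type*} [MetricSpace M] [ChartedSpace E M] [IsManifold 𝓘(ℝ, E) ∞ M]
  [RiemannianBundle (fun x : M => TangentSpace 𝓘(ℝ, E) x)]
  [IsContMDiffRiemannianBundle 𝓘(ℝ, E) ∞ E (fun x : M => TangentSpace 𝓘(ℝ, E) x)]
  [CompactSpace M] [ConnectedSpace M] [IsRiemannianManifold 𝓘(ℝ, E) M]
  {e : ∀ x : M, TangentSpace 𝓘(ℝ, E) x → M}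
  {K : ℕ} (P : X3.PF E M K)

theorem nm_eq_zero {x : M} {a : E} (h : nm (E := E) x a = 0) : a = 0 :=
  norm_eq_zero (E := TangentSpace 𝓘(ℝ, E) x) |>.1 h

variable {V : Type} [NormedAddCommGroup V] [NormedSpace ℝ V] [FiniteDimensional ℝ V]

/-- the bad fields form a null set -/
theorem null_Og {U : Set M} {R : M × ℝ → M} (hR : RH (E := E) U R) {z : V → UT E M} {T : Set V}
    (hz : ∀ s ∈ T, (dUT E M).At z s) (hU : ∀ s ∈ T, foot (z s) ∈ U)
    (hV : finrank ℝ V + 1 < finrank ℝ E) :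
    volume {a : Fin K → ℝ | ∃ s ∈ T, z s ∉ Og U R (se P a)} = 0 := by
  have hd : finrank ℝ (V × ℝ) < finrank ℝ E := by
    rw [finrank_prod, finrank_self]
    exact hV
  have n1 := null_par P hd (f := fun p : V × ℝ => foot (z p.1))
    (u := fun p => p.2 • vec' (E := E) (z p.1)) (T := T ×ˢ univ) (by
      rintro ⟨s, t⟩ ⟨hs, -⟩
      have h1 : SmV (fun s => foot (z s)) (fun s => (vec' (E := E) (z s) : E)) s :=
        (at_iff.1 (hz s hs)).self_of_nhds
      have h2 : SmV (fun p : V × ℝ => foot (z p.1)) (fun p => (vec' (E := E) (z p.1) : E)) (s, t) :=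
        SmV.comp (h := fun p : V × ℝ => p.1) (s := (s, t)) h1 contDiffAt_fst
      exact SmV.smul contDiffAt_snd h2)
  have n2 := null_par P hd (f := fun p : V × ℝ => R (foot (z p.1), p.2))
    (u := fun p => 0) (T := T ×ˢ univ) (by
      rintro ⟨s, t⟩ ⟨hs, -⟩
      have k0 : (dM E M).At (fun s => foot (z s)) s := map_foot (hz s hs)
      have k1 : (dM E M).At (fun p : V × ℝ => foot (z p.1)) (s, t) :=
        (dM E M).comp (u := fun s => foot (z s)) (g := Prod.fst) (x := ((s, t) : V × ℝ)) k0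
          (Sm.of_contDiff contDiff_fst _)
      have k2 := hR.opn.ev k1 (hU s hs)
      have k3 : (dM E M).At (fun p : V × ℝ => R (foot (z p.1), p.2)) (s, t) :=
        hR.map (u := fun p : V × ℝ => (foot (z p.1), p.2))
          ⟨⟨k1, k2⟩, Sm.of_contDiff contDiff_snd _⟩
      have k4 : ContMDiffAt 𝓘(ℝ, V × ℝ) 𝓘(ℝ, E) ∞ (fun p : V × ℝ => R (foot (z p.1), p.2)) (s, t) :=
        Filter.Eventually.self_of_nhds k3
      have k5 : SmV (fun p : V × ℝ => R (foot (z p.1), p.2))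
          (fun p => ((0 : ℝ) • se P 0 (R (foot (z p.1), p.2)) : E)) (s, t) :=
        SmV.smul contDiffAt_const (smV_se P k4 contDiffAt_const)
      refine k5.congr (Eventually.of_forall fun p => ?_)
      exact zero_smul ℝ _)
  refine measure_mono_null ?_ (measure_union_null n1 n2)
  rintro a ⟨s, hs, hb⟩
  by_contra hcon
  rw [mem_union, not_or] at hcon
  obtain ⟨c1, c2⟩ := hcon
  refine hb ⟨hU s hs, ?_, ?_⟩
  · intro c hc h0
    have h1 := nm_eq_zero h0
    have hc0 : c ≠ 0 := by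
      rintro rfl
      rw [sub_zero, one_smul, zero_smul, add_zero] at h1
      have h2 := nm_vec' (z s)
      rw [h1] at h2
      have h3 : nm (E := E) (foot (z s)) (0 : E) = 0 :=
        norm_zero (E := TangentSpace 𝓘(ℝ, E) (foot (z s)))
      rw [h3] at h2
      exact zero_ne_one h2
    refine c1 ⟨(s, -(c⁻¹ * (1 - c))), ⟨hs, mem_univ _⟩, ?_⟩
    show se P a (foot (z s)) = (-(c⁻¹ * (1 - c))) • vec' (E := E) (z s)
    have h4 : c • se P a (foot (z s)) = -((1 - c) • vec' (E := E) (z s)) :=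
      eq_neg_of_add_eq_zero_right h1
    have h5 : se P a (foot (z s)) = c⁻¹ • (c • se P a (foot (z s))) := by
      rw [smul_smul, inv_mul_cancel₀ hc0, one_smul]
    rw [h5, h4, smul_neg, smul_smul, neg_smul]
  · intro t ht h0
    exact c2 ⟨(s, t), ⟨hs, mem_univ _⟩, nm_eq_zero h0⟩

/-- the orbit of a plot -/
def orb (F : Facts e) (z : V → UT E M) (p : ℝ × V) : UT E M := phi F (z p.2, p.1)

theorem at_orb (F : Facts e) {z : V → UT E M} {s : V} (hz : (dUT E M).At z s) (t : ℝ) :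
    (dUT E M).At (orb F z) (t, s) := by
  have k1 : (dUT E M).At (fun p : ℝ × V => z p.2) (t, s) :=
    (dUT E M).comp (u := z) (g := Prod.snd) (x := ((t, s) : ℝ × V)) hz
      (Sm.of_contDiff contDiff_snd _)
  exact map_phi F (u := fun p : ℝ × V => (z p.2, p.1)) ⟨k1, Sm.of_contDiff contDiff_fst _⟩

/-- **general position of the fields** -/
theorem exists_field (F : Facts e) {U : Set M} {R : M × ℝ → M} (hR : RH (E := E) U R)
    {z : V → UT E M} {T : Set V} (hz : ∀ s ∈ T, (dUT E M).At z s)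
    (hU : ∀ s ∈ T, ∀ t, foot (phi F (z s, t)) ∈ U) (hV : finrank ℝ V + 2 < finrank ℝ E) :
    ∃ a : Fin K → ℝ, ∀ s ∈ T, z s ∈ core (phi F) (Og U R (se P a)) := by
  have h1 := null_Og P hR (z := orb F z) (T := (univ : Set ℝ) ×ˢ T)
    (fun p hp => at_orb F (hz p.2 hp.2) p.1) (fun p hp => hU p.2 hp.2 p.1)
    (by rw [finrank_prod, finrank_self]; omega)
  obtain ⟨a, ha⟩ : ∃ a : Fin K → ℝ,
      a ∉ {a : Fin K → ℝ | ∃ s ∈ (univ : Set ℝ) ×ˢ T, orb F z s ∉ Og U R (se P a)} := by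
    by_contra hcon
    push Not at hcon
    have h2 : {a : Fin K → ℝ | ∃ s ∈ (univ : Set ℝ) ×ˢ T, orb F z s ∉ Og U R (se P a)} = univ :=
      eq_univ_of_forall hcon
    rw [h2] at h1
    exact isOpen_univ.measure_ne_zero (volume : Measure (Fin K → ℝ)) univ_nonempty h1
  refine ⟨a, fun s hs t => ?_⟩
  by_contra hcon
  exact ha ⟨(t, s), ⟨mem_univ _, hs⟩, hcon⟩

/-! ### the two homotopies of the foot points -/

/-- the contraction of the ball -/
def Rb (e : ∀ x : M, TangentSpace 𝓘(ℝ, E) x → M) (p : M) (q : M × ℝ) : M :=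
  e p (tau q.2 • logMap e p q.1)

theorem Rb_zero (F : Facts e) (p x : M) : Rb e p (x, 0) = p := by
  show e p (tau 0 • logMap e p x) = p
  rw [tau_zero, zero_smul]
  exact exp_zero_eq F.isExp p

theorem opn_bl (p : M) (D : ℝ) : Opn (dM E M) (bl p D) := by
  refine ⟨fun {V} _ _ _ {u x} hu hx => ?_⟩
  have h1 : ContMDiffAt 𝓘(ℝ, V) 𝓘(ℝ, E) ∞ u x := Filter.Eventually.self_of_nhds hu
  exact (continuousAt_const.dist h1.continuousAt).eventually (gt_mem_nhds hx)

theorem opn_pc (p : M) : Opn (dM E M) (pc p) := by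
  refine ⟨fun {V} _ _ _ {u x} hu hx => ?_⟩
  have h1 : ContMDiffAt 𝓘(ℝ, V) 𝓘(ℝ, E) ∞ u x := Filter.Eventually.self_of_nhds hu
  exact h1.continuousAt.eventually_ne hx

theorem rh_Rb (F : Facts e) {D : ℝ} (hD : 0 < D) (hB : InjGE e D) (p : M) :
    RH (E := E) (bl p D) (Rb e p) where
  opn := opn_bl p D
  map := by
    intro V _ _ _ u x h
    have h1 : ∀ᶠ y in 𝓝 x, ContMDiffAt 𝓘(ℝ, V) 𝓘(ℝ, E) ∞ (fun s => (u s).1) y := h.1.1
    have h2 : ∀ᶠ y in 𝓝 x, dist p (u y).1 < D := h.1.2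
    have h3 : Sm (fun y => (u y).2) x := h.2
    have h4 : Sm (fun y => tau (u y).2 • logMap e p (u y).1) x := by
      filter_upwards [h1, h2, sm_tau h3] with y k1 k2 k3
      have k4 : ContDiffAt ℝ ∞ (fun y => logMap e p (u y).1) y :=
        (ContMDiffAt.comp (f := fun s => (u s).1) y
          (contMDiffAt_logMap_of_dist F hB k2) k1).contDiffAt
      exact k3.smul k4
    have h5 : ∀ᶠ y in 𝓝 x, ContMDiffAt 𝓘(ℝ, V) 𝓘(ℝ, E) ∞
        (fun y => e p (tau (u y).2 • logMap e p (u y).1)) y := by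
      filter_upwards [h4] with y hy
      exact (contMDiff_exp_fiber F.isExp p).contMDiffAt.comp y hy.contMDiffAt
    exact h5
  one := by
    intro x hx
    show e p (tau 1 • logMap e p x) = x
    rw [tau_one, one_smul]
    exact (exp_logMap F hB hx).1

theorem rh_Rt (F : Facts e) {D : ℝ} (hD : 0 < D) (hB : InjGE e D)
    (hdiam : ∀ p q : M, dist p q ≤ D) {l : ℕ}
    (hl : ∀ x y : M, dist x y = D → finrank ℝ (Pl e D x y) = l + 1) (p : M) :
    RH (E := E) (pc p) (Rt e D p) where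
  opn := opn_pc p
  map := map_Rt F hD hB hdiam hl p
  one := fun x hx => Rt_one F hB hx

/-- a point whose cut locus is missed by a small family -/
theorem exists_far (F : Facts e) {D : ℝ} (hD : 0 < D) (hB : InjGE e D)
    (hdiam : ∀ p q : M, dist p q ≤ D) {l : ℕ}
    (hl : ∀ x y : M, dist x y = D → finrank ℝ (Pl e D x y) = l + 1) (hlE : l < finrank ℝ E)
    {f : V → M} {T : Set V} (hf : ∀ s ∈ T, ContMDiffAt 𝓘(ℝ, V) 𝓘(ℝ, E) ∞ f s)
    (hV : finrank ℝ V ≤ l) : ∃ q : M, ∀ s ∈ T, f s ∈ bl q D := by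
  have h1 := H649.nullE_cut F hD hB hdiam hl hV hlE hf
  obtain ⟨x⟩ : Nonempty M := inferInstance
  obtain ⟨ξ, -, h2⟩ := h1.exists_notMem hD x
  refine ⟨ef e x ξ, fun s hs => ?_⟩
  rcases lt_or_eq_of_le (hdiam (ef e x ξ) (f s)) with h | h
  · exact h
  · exact absurd ⟨s, hs, by rw [dist_comm]; exact h⟩ h2

/-- a point missed by a family of small dimension -/
theorem exists_miss (F : Facts e) {D : ℝ} (hD : 0 < D) (hB : InjGE e D)
    {f : V → M} {T : Set V} (hf : ∀ s ∈ T, ContMDiffAt 𝓘(ℝ, V) 𝓘(ℝ, E) ∞ f s)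
    (hV : finrank ℝ V < finrank ℝ E) : ∃ q : M, ∀ s ∈ T, f s ∈ pc q := by
  have h1 := H649.nullE_range F hB hV hf
  obtain ⟨x⟩ : Nonempty M := inferInstance
  obtain ⟨ξ, -, h2⟩ := h1.exists_notMem hD x
  exact ⟨ef e x ξ, fun s hs h3 => h2 ⟨s, hs, h3⟩⟩

end

end Vale.Agent.P231.TH
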