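import Vale.Agent.P231.X3.Op
import Vale.Agent.P231.H649.Sard

/-!
# P231, stage 3, S3-INT (TH 1): generic fields

`se P a x = ∑ a_i X_i(x)` for a Parseval frame `X`. For a smooth field `u` along a smooth map
`f : V → M`, `dim V < dim M`, the parameters `a` with `se P a (f s) = u s` for some `s` form a null
set.
-/

set_option maxSynthPendingDepth 3
set_option linter.unusedSectionVars false
set_option linter.unusedVariables false

open Bundle Manifold Set Filter Module MeasureTheory
open scoped ContDiff Manifold Topology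

namespace Vale.Agent.P231.TH

noncomputable section

open Vale.Agent.P234 Vale.Agent.P231 Vale.Agent.P231.Fm Vale.Agent.P231.W Vale.Agent.P231.WR
open Vale.Agent.P231.H775 Vale.Agent.P231.X3

variable {E : Type*} [NormedAddCommGroup E] [NormedSpace ℝ E] [FiniteDimensional ℝ E]
  {M : Type*} [MetricSpace M] [ChartedSpace E M] [IsManifold 𝓘(ℝ, E) ∞ M]
  [RiemannianBundle (fun x : M => TangentSpace 𝓘(ℝ, E) x)]
  [IsContMDiffRiemannianBundle 𝓘(ℝ, E) ∞ E (fun x : M => TangentSpace 𝓘(ℝ, E) x)]
  {K : ℕ} (P : PF E M K)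

/-- the field with parameters `a` -/
def se (a : Fin K → ℝ) (x : M) : E := ∑ i, a i • P.v i x

theorem se_add (a b : Fin K → ℝ) (x : M) : se P (a + b) x = se P a x + se P b x := by
  unfold se
  rw [← Finset.sum_add_distrib]
  exact Finset.sum_congr rfl fun i _ => by rw [Pi.add_apply, add_smul]

theorem se_smul (c : ℝ) (a : Fin K → ℝ) (x : M) : se P (c • a) x = c • se P a x := by
  unfold se
  rw [Finset.smul_sum]
  exact Finset.sum_congr rfl fun i _ => by rw [Pi.smul_apply, smul_assoc]

theorem se_em (x : M) (w : E) : se P (P.em x w) x = w := P.sum_em x w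

/-- the parameters as a linear map -/
def seL (x : M) : (Fin K → ℝ) →ₗ[ℝ] E where
  toFun a := se P a x
  map_add' a b := se_add P a b x
  map_smul' c a := se_smul P c a x

theorem seL_surj (x : M) : Function.Surjective (seL P x) := fun w => ⟨P.em x w, se_em P x w⟩

include P in
theorem finrank_le : finrank ℝ E ≤ K ∨ IsEmpty M := by
  rcases isEmpty_or_nonempty M with h | ⟨⟨x⟩⟩
  · exact Or.inr h
  · left
    have h1 := LinearMap.finrank_le_finrank_of_surjective (seL_surj P x)
    rwa [Module.finrank_fin_fun] at h1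

theorem finrank_ker (x : M) : finrank ℝ (LinearMap.ker (seL P x)) = K - finrank ℝ E := by
  have h1 := LinearMap.finrank_range_add_finrank_ker (seL P x)
  rw [LinearMap.range_eq_top.2 (seL_surj P x), finrank_top, Module.finrank_fin_fun] at h1
  omega

/-- the projection onto the kernel -/
def Qk (x : M) (b : Fin K → ℝ) : Fin K → ℝ := b - P.em x (se P b x)

theorem Qk_mem (x : M) (b : Fin K → ℝ) : Qk P x b ∈ LinearMap.ker (seL P x) := by
  rw [LinearMap.mem_ker]
  change se P (Qk P x b) x = 0
  have h1 : Qk P x b = b + (-1 : ℝ) • P.em x (se P b x) := by rw [neg_one_smul, ← sub_eq_add_neg]; rfl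
  rw [h1, se_add, se_smul, se_em, neg_one_smul, add_neg_cancel]

theorem Qk_self {x : M} {b : Fin K → ℝ} (h : se P b x = 0) : Qk P x b = b := by
  have h1 : P.em x (0 : E) = 0 := by
    have := P.em_smul x 0 (0 : E)
    rwa [zero_smul, zero_smul] at this
  rw [Qk, h, h1, sub_zero]

theorem em_sum {ι : Type*} (t : Finset ι) (x : M) (w : ι → E) :
    P.em x (∑ i ∈ t, w i) = ∑ i ∈ t, P.em x (w i) := by
  classical
  have h0 : P.em x (0 : E) = 0 := by
    have := P.em_smul x 0 (0 : E)
    rwa [zero_smul, zero_smul] at this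
  induction t using Finset.induction_on with
  | empty => simpa using h0
  | insert i t hi ih => rw [Finset.sum_insert hi, Finset.sum_insert hi, P.em_add, ih]

/-- the projection as a linear map -/
def QkL (x : M) : (Fin K → ℝ) →ₗ[ℝ] (Fin K → ℝ) where
  toFun := Qk P x
  map_add' a b := by
    simp only [Qk]
    rw [se_add, P.em_add]
    abel
  map_smul' c a := by
    simp only [Qk, RingHom.id_apply]
    rw [se_smul, P.em_smul, smul_sub]

/-- the kernel is spanned by the projections of few basis vectors -/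
theorem exists_idx (x : M) : ∃ j : Fin (K - finrank ℝ E) → Fin K,
    ∀ a : Fin K → ℝ, se P a x = 0 →
      ∃ b : Fin (K - finrank ℝ E) → ℝ, a = ∑ r, b r • Qk P x (Pi.single (j r) 1) := by
  classical
  let v : Fin K → LinearMap.ker (seL P x) := fun i => ⟨Qk P x (Pi.single i 1), Qk_mem P x _⟩
  have hspan : Submodule.span ℝ (Set.range v) = ⊤ := by
    rw [eq_top_iff]
    rintro ⟨a, ha⟩ -
    have ha' : se P a x = 0 := ha
    have h1 : (⟨a, ha⟩ : LinearMap.ker (seL P x)) = ∑ i, a i • v i := by
      apply Subtype.ext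
      rw [Submodule.coe_sum]
      have h2 : a = ∑ i, a i • (Pi.single i (1 : ℝ) : Fin K → ℝ) := by
        funext k
        simp [Finset.sum_apply, Pi.single_apply]
      have h3 : Qk P x a = ∑ i, a i • Qk P x (Pi.single i (1 : ℝ)) := by
        change QkL P x a = _
        conv_lhs => rw [h2]
        rw [map_sum]
        exact Finset.sum_congr rfl fun i _ => map_smul _ _ _
      rw [Qk_self P ha'] at h3
      exact h3
    rw [h1]
    exact Submodule.sum_mem _ fun i _ => Submodule.smul_mem _ _ (Submodule.subset_span ⟨i, rfl⟩)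
  obtain ⟨κ, j, hj, hs, hli⟩ := exists_linearIndependent' ℝ v
  have hfin : Finite κ := Finite.of_injective j hj
  have : Fintype κ := Fintype.ofFinite κ
  have htop : Submodule.span ℝ (Set.range (v ∘ j)) = ⊤ := by rw [hs, hspan]
  have hcard : Fintype.card κ = K - finrank ℝ E := by
    rw [← finrank_ker P x, ← finrank_span_eq_card hli, htop, finrank_top]
  let eq : Fin (K - finrank ℝ E) ≃ κ := (finCongr hcard.symm).trans (Fintype.equivFin κ).symm
  refine ⟨fun r => j (eq r), fun a ha => ?_⟩
  have hmem : (⟨a, ha⟩ : LinearMap.ker (seL P x)) ∈ Submodule.span ℝ (Set.range (v ∘ j)) := by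
    rw [htop]
    exact Submodule.mem_top
  obtain ⟨c, hc⟩ := (Submodule.mem_span_range_iff_exists_fun ℝ).1 hmem
  refine ⟨fun r => c (eq r), ?_⟩
  have h1 := congrArg Subtype.val hc
  rw [Submodule.coe_sum] at h1
  rw [← Equiv.sum_comp eq] at h1
  exact h1.symm

section Null

variable {V : Type*} [NormedAddCommGroup V] [NormedSpace ℝ V] [FiniteDimensional ℝ V]

theorem smV_v {f : V → M} {s : V} (hf : ContMDiffAt 𝓘(ℝ, V) 𝓘(ℝ, E) ∞ f s) (i : Fin K) :
    SmV f (fun y => (P.v i (f y) : E)) s :=
  ContMDiffAt.comp s (g := fun x : M => TotalSpace.mk' E x (P.X i x)) (P.smooth i (f s)) hf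

theorem smV_se {f : V → M} {z : V → Fin K → ℝ} {s : V}
    (hf : ContMDiffAt 𝓘(ℝ, V) 𝓘(ℝ, E) ∞ f s) (hz : ContDiffAt ℝ ∞ z s) :
    SmV f (fun y => (se P (z y) (f y) : E)) s := by
  refine SmV.sum (E := E) Finset.univ (u := fun i y => (z y i • P.v i (f y) : E)) hf
    fun i _ => ?_
  have h1 : ContDiffAt ℝ ∞ (fun y => z y i) s := (contDiffAt_pi.1 hz) i
  exact SmV.smul h1 (smV_v P hf i)

theorem sm_em' {f : V → M} {u : V → E} {s : V} (hu : SmV f (fun y => (u y : E)) s) :
    ContDiffAt ℝ ∞ (fun y => P.em (f y) (u y)) s := by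
  rw [contDiffAt_pi]
  intro i
  exact (smV_v P hu.base i).inner hu

/-- **generic fields**: the bad parameters form a null set -/
theorem null_par (hV : finrank ℝ V < finrank ℝ E) {f : V → M} {u : V → E} {T : Set V}
    (hu : ∀ s ∈ T, SmV f (fun y => (u y : E)) s) :
    volume {a : Fin K → ℝ | ∃ s ∈ T, se P a (f s) = u s} = 0 := by
  classical
  rcases finrank_le P with hK | hM
  · let g : (Fin (K - finrank ℝ E) → Fin K) → V × (Fin (K - finrank ℝ E) → ℝ) → (Fin K → ℝ) :=
      fun j p => P.em (f p.1) (u p.1) + Qk P (f p.1) (fun k => ∑ r, p.2 r * (if j r = k then 1 else 0))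
    have hsub : {a : Fin K → ℝ | ∃ s ∈ T, se P a (f s) = u s} ⊆
        ⋃ j, g j '' (T ×ˢ univ) := by
      rintro a ⟨s, hs, has⟩
      obtain ⟨j, hj⟩ := exists_idx P (f s)
      have h0 : se P (a - P.em (f s) (u s)) (f s) = 0 := by
        have h1 : a - P.em (f s) (u s) = a + (-1 : ℝ) • P.em (f s) (u s) := by
          rw [neg_one_smul, ← sub_eq_add_neg]
        rw [h1, se_add, se_smul, se_em, has, neg_one_smul, add_neg_cancel]
      obtain ⟨b, hb⟩ := hj _ h0
      refine mem_iUnion.2 ⟨j, (s, b), ⟨hs, mem_univ _⟩, ?_⟩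
      have h2 : Qk P (f s) (fun k => ∑ r, b r * (if j r = k then 1 else 0)) =
          ∑ r, b r • Qk P (f s) (Pi.single (j r) 1) := by
        have h3 : (fun k => ∑ r, b r * (if j r = k then (1 : ℝ) else 0)) =
            ∑ r, b r • (Pi.single (j r) (1 : ℝ) : Fin K → ℝ) := by
          funext k
          rw [Finset.sum_apply]
          refine Finset.sum_congr rfl fun r _ => ?_
          rw [Pi.smul_apply, smul_eq_mul, Pi.single_apply]
          simp only [eq_comm]
        rw [h3]
        change QkL P (f s) _ = _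
        rw [map_sum]
        exact Finset.sum_congr rfl fun r _ => map_smul _ _ _
      change P.em (f s) (u s) + Qk P (f s) (fun k => ∑ r, b r * (if j r = k then 1 else 0)) = a
      rw [h2, ← hb]
      abel
    refine measure_mono_null hsub (measure_iUnion_null fun j => ?_)
    refine H649.sard_ker volume (by
      rw [finrank_prod, Module.finrank_fin_fun, Module.finrank_fin_fun]
      omega) (T := T ×ˢ univ) ?_ ?_
    · rintro ⟨s, b⟩ ⟨hs, -⟩
      have h1 : SmV (V := V × (Fin (K - finrank ℝ E) → ℝ)) (fun p => f p.1)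
          (fun p => (u p.1 : E)) (s, b) := (hu s hs).comp contDiffAt_fst
      have h2 : ContDiffAt ℝ ∞ (fun p : V × (Fin (K - finrank ℝ E) → ℝ) =>
          (fun k => ∑ r, p.2 r * (if j r = k then (1 : ℝ) else 0))) (s, b) := by
        rw [contDiffAt_pi]
        intro k
        refine ContDiffAt.sum fun r _ => ?_
        exact ((contDiffAt_pi.1 contDiffAt_snd) r).mul contDiffAt_const
      have h3 := smV_se P h1.base h2
      have h4 := (sm_em' P h1).add (h2.sub (sm_em' P h3))
      exact h4.differentiableAt (by simp)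
    · intro p _
      left
      rw [finrank_prod, Module.finrank_fin_fun, Module.finrank_fin_fun]
      omega
  · have h1 : {a : Fin K → ℝ | ∃ s ∈ T, se P a (f s) = u s} = ∅ := by
      ext a
      simp only [mem_ofPred_eq, mem_empty_iff_false, iff_false]
      rintro ⟨s, -, -⟩
      exact hM.false (f s)
    rw [h1, measure_empty]

end Null

end

end Vale.Agent.P231.TH
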