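import Vale.Agent.P231.TH.Open
import Vale.Agent.P231.TH.Par
import Vale.Agent.P231.Co.M3h

/-!
# P231, stage 3, S3-INT (TH 3): the thinning homotopy of the unit tangent bundle

`v ↦ s(foot v)` by normalising the segment, then the foot moves alone along `R`.
-/

set_option maxSynthPendingDepth 3
set_option linter.unusedSectionVars false
set_option linter.unusedVariables false

open Bundle Manifold Set Filter Module
open scoped ContDiff Manifold Topology

namespace Vale.Agent.P231.TH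

noncomputable section

open Vale.Agent.P234 Vale.Agent.P231 Vale.Agent.P231.Fm Vale.Agent.P231.W Vale.Agent.P231.WR
open Vale.Agent.P231.H775 Vale.Agent.P231.CoC Vale.Agent.P231.WF

variable {E : Type*} [NormedAddCommGroup E] [NormedSpace ℝ E] [FiniteDimensional ℝ E]
  {M : Type*} [MetricSpace M] [ChartedSpace E M] [IsManifold 𝓘(ℝ, E) ∞ M]
  [RiemannianBundle (fun x : M => TangentSpace 𝓘(ℝ, E) x)]
  [IsContMDiffRiemannianBundle 𝓘(ℝ, E) ∞ E (fun x : M => TangentSpace 𝓘(ℝ, E) x)]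

section Nz

theorem nmn (x : M) (a : E) : 0 ≤ nm (E := E) x a :=
  norm_nonneg (E := TangentSpace 𝓘(ℝ, E) x) a

theorem nm_nz {x : M} {a : E} (h : ¬ nm (E := E) x a = 0) :
    nm (E := E) x ((nm (E := E) x a)⁻¹ • a) = 1 := by
  rw [nm_smul, abs_inv, abs_of_nonneg (nmn x a)]
  exact inv_mul_cancel₀ h

open Classical in
/-- the normalised vector -/
def nz (x : M) (a : E) (v₀ : UT E M) : UT E M :=
  if h : nm (E := E) x a = 0 then v₀ else
    W.mk (E := E) x ((nm (E := E) x a)⁻¹ • a) (nm_nz h)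

theorem nz_eq {x : M} {a : E} (v₀ : UT E M) (h : nm (E := E) x a ≠ 0) :
    nz x a v₀ = W.mk (E := E) x ((nm (E := E) x a)⁻¹ • a) (nm_nz h) := dif_neg h

theorem nz_junk {x : M} {a : E} (v₀ v₁ : UT E M) (h : nm (E := E) x a ≠ 0) :
    nz x a v₀ = nz x a v₁ := by
  rw [nz_eq v₀ h, nz_eq v₁ h]

theorem foot_nz {x : M} {a : E} (v₀ : UT E M) (h : nm (E := E) x a ≠ 0) :
    foot (nz x a v₀) = x := by
  rw [nz_eq v₀ h, foot_mk]

theorem nz_self (v v₀ : UT E M) : nz (foot v) (vec' v) v₀ = v := by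
  have h1 : nm (E := E) (foot v) (vec' v) = 1 := nm_vec' v
  have h2 : nm (E := E) (foot v) (vec' v) ≠ 0 := by
    rw [h1]
    exact one_ne_zero
  rw [nz_eq v₀ h2]
  refine Eq.trans (mk_congr (E := E) rfl ?_ (hw := nm_vec' v)) (mk_eta v)
  rw [h1, inv_one, one_smul]

variable {V : Type*} [NormedAddCommGroup V] [NormedSpace ℝ V] [FiniteDimensional ℝ V]

theorem ev_ne {f : V → M} {a : V → E} {x : V} (h : SmV f (fun s => (a s : E)) x)
    (h0 : nm (E := E) (f x) (a x) ≠ 0) : ∀ᶠ y in 𝓝 x, nm (E := E) (f y) (a y) ≠ 0 := by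
  have h1 : ContDiffAt ℝ ∞ (fun s => (nm (E := E) (f s) (a s)) ^ 2) x := h.norm_sq
  have h2 := h1.continuousAt.eventually_ne (pow_ne_zero 2 h0)
  filter_upwards [h2] with y hy h3
  exact hy (by rw [h3]; norm_num)

theorem sm_nm {f : V → M} {a : V → E} {x : V} (h : SmV f (fun s => (a s : E)) x)
    (h0 : nm (E := E) (f x) (a x) ≠ 0) :
    ContDiffAt ℝ ∞ (fun s => nm (E := E) (f s) (a s)) x := by
  have h1 : ContDiffAt ℝ ∞ (fun s => (nm (E := E) (f s) (a s)) ^ 2) x := h.norm_sq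
  refine (h1.sqrt (pow_ne_zero 2 h0)).congr_of_eventuallyEq (Eventually.of_forall fun s => ?_)
  exact (Real.sqrt_sq (nmn (f s) (a s))).symm

end Nz

section NzAt

variable {V : Type} [NormedAddCommGroup V] [NormedSpace ℝ V] [FiniteDimensional ℝ V]

theorem at_nz {f : V → M} {a : V → E} {v₀ : V → UT E M} {x : V}
    (h : ∀ᶠ y in 𝓝 x, SmV f (fun s => (a s : E)) y) (h0 : nm (E := E) (f x) (a x) ≠ 0) :
    (dUT E M).At (fun y => nz (f y) (a y) (v₀ y)) x := by
  have h1 := ev_ne h.self_of_nhds h0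
  have h3 : ∀ᶠ y in 𝓝 x, ContMDiffAt 𝓘(ℝ, V) 𝓘(ℝ, E).tangent ∞
      (fun s => (nz (f s) (a s) (v₀ s)).1) y := by
    filter_upwards [h, h1, eventually_eventually_nhds.2 h1] with y k1 k2 k3
    have m1 : SmV f (fun s => (((nm (E := E) (f s) (a s))⁻¹ • a s : E))) y :=
      SmV.smul (f := f) (u := fun s => (a s : E)) ((sm_nm k1 k2).inv k2) k1
    refine ContMDiffAt.congr_of_eventuallyEq m1 ?_
    filter_upwards [k3] with s hs
    rw [nz_eq _ hs]
    rfl
  exact h3

theorem at_iff {z : V → UT E M} {x : V} : (dUT E M).At z x ↔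
    ∀ᶠ y in 𝓝 x, SmV (fun s => foot (z s)) (fun s => (vec' (E := E) (z s) : E)) y := Iff.rfl

end NzAt

/-- a smooth vector field -/
structure Fld (w : M → E) : Prop where
  smV : ∀ {V : Type} [NormedAddCommGroup V] [NormedSpace ℝ V] [FiniteDimensional ℝ V]
    {f : V → M} {s : V}, ContMDiffAt 𝓘(ℝ, V) 𝓘(ℝ, E) ∞ f s → SmV f (fun y => (w (f y) : E)) s

theorem fld_se {K : ℕ} (P : X3.PF E M K) (a : Fin K → ℝ) : Fld (E := E) (se P a) :=
  ⟨fun hf => smV_se P hf contDiffAt_const⟩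

/-- a homotopy of the foot points -/
structure RH (U : Set M) (R : M × ℝ → M) : Prop where
  opn : Opn (dM E M) U
  map : (((dM E M).on U).prod (Dif.lin ℝ)).Map (dM E M) R
  one : ∀ x ∈ U, R (x, 1) = x

section H

variable [CompactSpace M] [ConnectedSpace M] [IsRiemannianManifold 𝓘(ℝ, E) M]
  (U : Set M) (R : M × ℝ → M) (w : M → E)

/-- the domain of the homotopy -/
def Og : Set (UT E M) :=
  {v | foot v ∈ U ∧ (∀ c ∈ Icc (0 : ℝ) 1,
      nm (E := E) (foot v) ((1 - c) • vec' v + c • w (foot v)) ≠ 0) ∧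
    ∀ t ∈ Icc (0 : ℝ) 1, nm (E := E) (R (foot v, t)) (w (R (foot v, t))) ≠ 0}

/-- the homotopy -/
def Hh (p : UT E M × ℝ) : UT E M :=
  if p.2 < 1 / 2 then
    nz (foot p.1) ((1 - tau (3 * p.2)) • vec' p.1 + tau (3 * p.2) • w (foot p.1)) p.1
  else nz (R (foot p.1, 1 - tau (3 * p.2 - 2))) (w (R (foot p.1, 1 - tau (3 * p.2 - 2)))) p.1

variable {U R w}

theorem opn_Og (hR : RH (E := E) U R) (hw : Fld w) : Opn (dUT E M) (Og U R w) := by
  have h1 : Opn (dUT E M) (foot ⁻¹' U) := Opn.preimage (f := foot) map_foot hR.opn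
  have h2 : Opn ((dUT E M).prod (Dif.lin ℝ)) {p : UT E M × ℝ |
      nm (E := E) (foot p.1) ((1 - p.2) • vec' p.1 + p.2 • w (foot p.1)) ≠ 0} := by
    refine ⟨fun {V} _ _ _ {u x} hu hx => ?_⟩
    have k1 : SmV (fun s => foot (u s).1) (fun s => (vec' (E := E) (u s).1 : E)) x :=
      (at_iff.1 hu.1).self_of_nhds
    have k2 : ContDiffAt ℝ ∞ (fun s => (u s).2) x := Filter.Eventually.self_of_nhds hu.2
    have k3 := hw.smV k1.base
    exact ev_ne (f := fun s => foot (u s).1)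
      (SmV.add (SmV.smul (contDiffAt_const.sub k2) k1) (SmV.smul k2 k3)) hx
  have h3 : Opn ((dUT E M).prod (Dif.lin ℝ)) {p : UT E M × ℝ | foot p.1 ∈ U ∧
      nm (E := E) (R (foot p.1, p.2)) (w (R (foot p.1, p.2))) ≠ 0} := by
    refine ⟨fun {V} _ _ _ {u x} hu hx => ?_⟩
    have k0 : (dM E M).At (fun s => foot (u s).1) x := map_foot hu.1
    have k1 : ∀ᶠ y in 𝓝 x, foot (u y).1 ∈ U := hR.opn.ev k0 hx.1
    have k2 : (dM E M).At (fun s => R (foot (u s).1, (u s).2)) x :=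
      hR.map (u := fun s => (foot (u s).1, (u s).2)) ⟨⟨k0, k1⟩, hu.2⟩
    have k3 : ContMDiffAt 𝓘(ℝ, V) 𝓘(ℝ, E) ∞ (fun s => R (foot (u s).1, (u s).2)) x :=
      Filter.Eventually.self_of_nhds k2
    filter_upwards [k1, ev_ne (hw.smV k3) hx.2] with y j1 j2
    exact ⟨j1, j2⟩
  have h4 := (h1.inter (Opn.forall_Icc h2 0 1)).inter (Opn.forall_Icc h3 0 1)
  refine ⟨fun {V} _ _ _ {u x} hu hx => ?_⟩
  filter_upwards [h4.ev hu ⟨⟨hx.1, hx.2.1⟩, fun t ht => ⟨hx.1, hx.2.2 t ht⟩⟩] with y hy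
  exact ⟨hy.1.1, hy.1.2, fun t ht => (hy.2 t ht).2⟩

theorem Hh_lt {p : UT E M × ℝ} (h : p.2 < 1 / 2) : Hh R w p =
    nz (foot p.1) ((1 - tau (3 * p.2)) • vec' p.1 + tau (3 * p.2) • w (foot p.1)) p.1 := if_pos h

theorem Hh_ge {p : UT E M × ℝ} (h : ¬ p.2 < 1 / 2) : Hh R w p =
    nz (R (foot p.1, 1 - tau (3 * p.2 - 2))) (w (R (foot p.1, 1 - tau (3 * p.2 - 2)))) p.1 :=
  if_neg h

theorem Hh_mid (hR : RH (E := E) U R) {p : UT E M × ℝ} (hp : foot p.1 ∈ U) (h1 : 1 / 3 ≤ p.2)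
    (h2 : p.2 ≤ 2 / 3) : Hh R w p = nz (foot p.1) (w (foot p.1)) p.1 := by
  by_cases h : p.2 < 1 / 2
  · have h3 : tau (3 * p.2) = 1 := Real.smoothTransition.one_of_one_le (by linarith)
    rw [Hh_lt h, h3, sub_self, zero_smul, zero_add, one_smul]
  · have h3 : tau (3 * p.2 - 2) = 0 := Real.smoothTransition.zero_of_nonpos (by linarith)
    rw [Hh_ge h, h3, sub_zero, hR.one _ hp]

theorem Hh_nonpos {v : UT E M} {s : ℝ} (hs : s ≤ 0) : Hh R w (v, s) = v := by
  have h3 : tau (3 * s) = 0 := Real.smoothTransition.zero_of_nonpos (by linarith)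
  rw [Hh_lt (show (v, s).2 < 1 / 2 by show s < 1 / 2; linarith)]
  show nz (foot v) ((1 - tau (3 * s)) • vec' v + tau (3 * s) • w (foot v)) v = v
  rw [h3, sub_zero, one_smul, zero_smul, add_zero]
  exact nz_self v v

theorem Hh_one_le {v : UT E M} {s : ℝ} (hs : 1 ≤ s) :
    Hh R w (v, s) = nz (R (foot v, 0)) (w (R (foot v, 0))) v := by
  have h3 : tau (3 * s - 2) = 1 := Real.smoothTransition.one_of_one_le (by linarith)
  rw [Hh_ge (show ¬ (v, s).2 < 1 / 2 by show ¬ s < 1 / 2; linarith)]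
  show nz (R (foot v, 1 - tau (3 * s - 2))) (w (R (foot v, 1 - tau (3 * s - 2)))) v = _
  rw [h3, sub_self]

/-- the homotopy is smooth -/
theorem map_Hh (hR : RH (E := E) U R) (hw : Fld w) :
    (((dUT E M).on (Og U R w)).prod (Dif.lin ℝ)).Map (dUT E M) (Hh R w) := by
  intro V _ _ _ u x hu
  have ho : ∀ᶠ y in 𝓝 x, (u y).1 ∈ Og U R w := hu.1.2
  have hx : (u x).1 ∈ Og U R w := ho.self_of_nhds
  have k0 : (dM E M).At (fun s => foot (u s).1) x := map_foot hu.1.1
  have k1 : ∀ᶠ y in 𝓝 x, foot (u y).1 ∈ U := ho.mono fun y hy => hy.1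
  have ks : Sm (fun y => (u y).2) x := hu.2
  have hc : ContinuousAt (fun y => (u y).2) x := ks.continuousAt
  have key : ∀ (G : V → UT E M), (dUT E M).At G x → (fun y => Hh R w (u y)) =ᶠ[𝓝 x] G →
      (dUT E M).At (Hh R w ∘ u) x := by
    intro G hG he
    exact (dUT E M).congr hG he.symm
  rcases lt_trichotomy (u x).2 (1 / 2) with hlt | heq | hgt
  · refine key (fun y => nz (foot (u y).1)
      ((1 - tau (3 * (u y).2)) • vec' (u y).1 + tau (3 * (u y).2) • w (foot (u y).1)) (u y).1) ?_ ?_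
    · refine at_nz (f := fun y => foot (u y).1) ?_ ?_
      · filter_upwards [at_iff.1 hu.1.1, sm_tau (f := fun y => 3 * (u y).2)
          (by filter_upwards [ks] with y hy using contDiffAt_const.mul hy)] with y j1 j2
        exact SmV.add (SmV.smul (contDiffAt_const.sub j2) j1) (SmV.smul j2 (hw.smV j1.base))
      · exact hx.2.1 _ ⟨tau_nonneg _, tau_le_one _⟩
    · filter_upwards [hc.eventually (gt_mem_nhds hlt)] with y hy
      exact Hh_lt hy
  · refine key (fun y => nz (foot (u y).1) (w (foot (u y).1)) (u y).1) ?_ ?_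
    · refine at_nz (f := fun y => foot (u y).1) ?_ ?_
      · filter_upwards [k0] with y hy
        exact hw.smV hy
      · have h1 := hx.2.1 1 ⟨zero_le_one, le_rfl⟩
        rwa [sub_self, zero_smul, zero_add, one_smul] at h1
    · have h1 : ∀ᶠ y in 𝓝 x, (u y).2 ∈ Ioo (1 / 3 : ℝ) (2 / 3) :=
        hc.eventually (isOpen_Ioo.mem_nhds (by show (u x).2 ∈ Ioo (1 / 3 : ℝ) (2 / 3); rw [heq]; norm_num))
      filter_upwards [h1, k1] with y hy hy1
      exact Hh_mid hR hy1 hy.1.le hy.2.le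
  · have k2 : Sm (fun y => 1 - tau (3 * (u y).2 - 2)) x := by
      filter_upwards [sm_tau (f := fun y => 3 * (u y).2 - 2)
        (by filter_upwards [ks] with y hy using (contDiffAt_const.mul hy).sub contDiffAt_const)]
        with y j2
      exact contDiffAt_const.sub j2
    have k3 : (dM E M).At (fun s => R (foot (u s).1, 1 - tau (3 * (u s).2 - 2))) x :=
      hR.map (u := fun s => (foot (u s).1, 1 - tau (3 * (u s).2 - 2))) ⟨⟨k0, k1⟩, k2⟩
    refine key (fun y => nz (R (foot (u y).1, 1 - tau (3 * (u y).2 - 2)))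
      (w (R (foot (u y).1, 1 - tau (3 * (u y).2 - 2)))) (u y).1) ?_ ?_
    · refine at_nz (f := fun y => R (foot (u y).1, 1 - tau (3 * (u y).2 - 2))) ?_ ?_
      · filter_upwards [k3] with y hy
        exact hw.smV hy
      · exact hx.2.2 _ ⟨by have := tau_le_one (3 * (u x).2 - 2); linarith,
          by have := tau_nonneg (3 * (u x).2 - 2); linarith⟩
    · filter_upwards [hc.eventually (lt_mem_nhds hgt)] with y hy
      exact Hh_ge (not_lt.2 (le_of_lt hy))

end H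

end

end Vale.Agent.P231.TH
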