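import Vale.Agent.P231.TH.Main

/-!
# P231, stage 3, S3-INT (TH 8): contraction of small families, with the end point
-/

set_option maxSynthPendingDepth 3
set_option linter.unusedSectionVars false
set_option linter.unusedVariables false

open Bundle Manifold Set Filter Module MeasureTheory
open scoped ContDiff Manifold Topology

namespace Vale.Agent.P231.TH

noncomputable section

open Vale.Agent.P234 Vale.Agent.P231 Vale.Agent.P231.Fm Vale.Agent.P231.W Vale.Agent.P231.WR
open Vale.Agent.P231.H775 Vale.Agent.P231.CoC Vale.Agent.P231.WF Vale.Agent.P231.WE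

variable {E : Type*} [NormedAddCommGroup E] [NormedSpace ℝ E] [FiniteDimensional ℝ E]
  {M : Type*} [MetricSpace M] [ChartedSpace E M] [IsManifold 𝓘(ℝ, E) ∞ M]
  [RiemannianBundle (fun x : M => TangentSpace 𝓘(ℝ, E) x)]
  [IsContMDiffRiemannianBundle 𝓘(ℝ, E) ∞ E (fun x : M => TangentSpace 𝓘(ℝ, E) x)]
  [CompactSpace M] [ConnectedSpace M] [IsRiemannianManifold 𝓘(ℝ, E) M]
  {e : ∀ x : M, TangentSpace 𝓘(ℝ, E) x → M}
variable (F : Facts e) {D : ℝ} (hD : 0 < D) (hB : InjGE e D)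
    (hdiam : ∀ p q : M, dist p q ≤ D) {l : ℕ}
    (hl : ∀ x y : M, dist x y = D → finrank ℝ (Pl e D x y) = l + 1)
variable {V : Type} [NormedAddCommGroup V] [NormedSpace ℝ V] [FiniteDimensional ℝ V]

include hD hB hdiam hl in
/-- **(CO)** with the end point: the homotopy of an open invariant set to ONE unit vector -/
theorem exists_contr_pt {z : V → UT E M} {T : Set V} (hz : ∀ s ∈ T, (dUT E M).At z s)
    (hne : T.Nonempty)
    (hV : finrank ℝ V + 1 ≤ l) (hV' : finrank ℝ V + 2 < finrank ℝ E) (hlE : l < finrank ℝ E) :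
    ∃ (O : Set (UT E M)) (H : UT E M × ℝ → UT E M) (v₁ : UT E M), Hom F O univ H 0 ∧
      (∀ v ∈ O, ∀ s, 1 ≤ s → H (v, s) = v₁) ∧ ∀ s ∈ T, z s ∈ O := by
  obtain ⟨K, ⟨P⟩⟩ := X3.exists_pf (E := E) (M := M)
  obtain ⟨q, hq⟩ := exists_far F hD hB hdiam hl hlE
    (f := fun p : ℝ × V => foot (orb F z p)) (T := (univ : Set ℝ) ×ˢ T) (fun p hp => by
      have h1 : (dM E M).At (fun p : ℝ × V => foot (orb F z p)) p :=
        map_foot (at_orb F (hz p.2 hp.2) p.1)
      exact Filter.Eventually.self_of_nhds h1) (by rw [finrank_prod, finrank_self]; omega)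
  have hR := rh_Rb (E := E) F hD hB q
  obtain ⟨a, ha⟩ := exists_field P F hR hz (fun s hs t => hq (t, s) ⟨mem_univ _, hs⟩) hV'
  have h0 : nm (E := E) q (se P a q) ≠ 0 := by
    obtain ⟨s, hs⟩ := hne
    have h1 := (core_subset (isFlow_phi F hD hB hdiam) (ha s hs)).2.2 0 ⟨le_rfl, zero_le_one⟩
    rwa [Rb_zero F] at h1
  have hend : ∀ v : UT E M, ∀ s, 1 ≤ s →
      Hh (Rb e q) (se P a) (v, s) = W.mk (E := E) q _ (nm_nz h0) := by
    intro v s hs
    rw [Hh_one_le hs, Rb_zero F, nz_eq v h0]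
  refine ⟨core (phi F) (Og (bl q D) (Rb e q) (se P a)), Hh (Rb e q) (se P a),
    W.mk (E := E) q _ (nm_nz h0), ?_, fun v _ s hs => hend v s hs, ha⟩
  refine hom_of F hD hB hdiam hR (fld_se P a) ?_
  exact Thin.congr_on (f := fun _ => W.mk (E := E) q _ (nm_nz h0))
      (thin_const (at_constUT _ _)) fun v hv => (hend v 1 le_rfl).symm

end

end Vale.Agent.P231.TH
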