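import Vale.Agent.P231.WF.Top
import Vale.Agent.P231.Co.On
import Vale.Agent.P231.WA.Deg

/-!
# P231, stage 3, S3-INT (TH 2): sets open along plots, invariant sets, shrinking
-/

set_option linter.unusedSectionVars false
set_option linter.unusedVariables false

open Set Filter Module
open scoped Topology

namespace Vale.Agent.P231.TH

open Vale.Agent.P231.Fm Vale.Agent.P231.W Vale.Agent.P231.WF

section Abstract

variable {X Y : Type*} {D : Dif X} {D' : Dif Y}

/-- open along plots -/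
structure Opn (D : Dif X) (O : Set X) : Prop where
  /-- nearby points of a plot -/
  ev : ∀ {V : Type} [NormedAddCommGroup V] [NormedSpace ℝ V] [FiniteDimensional ℝ V]
    {u : V → X} {x : V}, D.At u x → u x ∈ O → ∀ᶠ y in 𝓝 x, u y ∈ O

theorem Opn.at_on {O : Set X} (hO : Opn D O) {V : Type} [NormedAddCommGroup V]
    [NormedSpace ℝ V] [FiniteDimensional ℝ V] {u : V → X} {x : V} (h : D.At u x) (hx : u x ∈ O) :
    (D.on O).At u x := ⟨h, hO.ev h hx⟩

theorem opn_univ : Opn D (univ : Set X) :=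
  ⟨fun _ _ => Eventually.of_forall fun _ => mem_univ _⟩

theorem Opn.inter {O O' : Set X} (h : Opn D O) (h' : Opn D O') : Opn D (O ∩ O') := by
  refine ⟨fun {V} _ _ _ {u x} hu hx => ?_⟩
  filter_upwards [h.ev hu hx.1, h'.ev hu hx.2] with y h1 h2
  exact ⟨h1, h2⟩

theorem Opn.union {O O' : Set X} (h : Opn D O) (h' : Opn D O') : Opn D (O ∪ O') := by
  refine ⟨fun {V} _ _ _ {u x} hu hx => ?_⟩
  rcases hx with hx | hx
  · filter_upwards [h.ev hu hx] with y h1
    exact Or.inl h1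
  · filter_upwards [h'.ev hu hx] with y h1
    exact Or.inr h1

theorem Opn.preimage {f : X → Y} (hf : D.Map D' f) {O : Set Y} (hO : Opn D' O) :
    Opn D (f ⁻¹' O) := by
  refine ⟨fun {V} _ _ _ {u x} hu hx => ?_⟩
  have h1 : D'.At (f ∘ u) x := hf hu
  exact hO.ev h1 hx

/-- preimages under maps defined on an open set -/
theorem Opn.inter_preimage {f : X → Y} {U : Set X} (hU : Opn D U) (hf : (D.on U).Map D' f)
    {O : Set Y} (hO : Opn D' O) : Opn D (U ∩ f ⁻¹' O) := by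
  refine ⟨fun {V} _ _ _ {u x} hu hx => ?_⟩
  have h0 := hU.ev hu hx.1
  have h1 : D'.At (f ∘ u) x := hf ⟨hu, h0⟩
  filter_upwards [h0, hO.ev h1 hx.2] with y h2 h3
  exact ⟨h2, h3⟩

/-- uniformity on a compact interval -/
theorem Opn.forall_Icc {O : Set (X × ℝ)} (hO : Opn (D.prod (Dif.lin ℝ)) O) (a b : ℝ) :
    Opn D {x : X | ∀ t ∈ Icc a b, (x, t) ∈ O} := by
  refine ⟨fun {V} _ _ _ {u x} hu hx => ?_⟩
  refine IsCompact.eventually_forall_of_forall_eventually (isCompact_Icc (a := a) (b := b))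
    (P := fun y t => (u y, t) ∈ O) fun t ht => ?_
  have h1 : (D.prod (Dif.lin ℝ)).At (fun z : V × ℝ => (u z.1, z.2)) (x, t) :=
    ⟨D.comp (u := u) (g := Prod.fst) (x := ((x, t) : V × ℝ)) hu (Sm.of_contDiff contDiff_fst _),
      Sm.of_contDiff contDiff_snd _⟩
  exact hO.ev h1 (hx t ht)

/-- sets open along plots are open -/
theorem LocSec.isOpen [TopologicalSpace X] (h : LocSec D) {O : Set X} (hO : Opn D O) :
    IsOpen O := by
  refine isOpen_iff_mem_nhds.2 fun x₀ hx₀ => ?_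
  obtain ⟨F, _, _, _, c, s, h1, h2, h3⟩ := h x₀
  have h4 : c (s x₀) = x₀ := h3.self_of_nhds
  have h5 : ∀ᶠ y in 𝓝 (s x₀), c y ∈ O := hO.ev h1 (by rw [h4]; exact hx₀)
  filter_upwards [h2.eventually h5, h3] with x hx1 hx2
  rw [← hx2]
  exact hx1

theorem PlotsCont.opn [TopologicalSpace X] (h : PlotsCont D) {O : Set X} (hO : IsOpen O) :
    Opn D O := ⟨fun hu hx => (h hu).eventually (hO.mem_nhds hx)⟩

/-- the invariant core of an open set -/
def core (φ : X × ℝ → X) (O : Set X) : Set X := {v | ∀ t : ℝ, φ (v, t) ∈ O}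

theorem core_subset {T : ℝ} {φ : X × ℝ → X} (hφ : IsFlow D T φ) {O : Set X} : core φ O ⊆ O :=
  fun v hv => by
    have h := hv 0
    rwa [hφ.zero] at h

theorem core_inv {T : ℝ} {φ : X × ℝ → X} (hφ : IsFlow D T φ) {O : Set X} {v : X}
    (hv : v ∈ core φ O) (t : ℝ) : φ (v, t) ∈ core φ O := fun s => by
  rw [hφ.add]
  exact hv (t + s)

theorem core_mono {φ : X × ℝ → X} {O O' : Set X} (h : O ⊆ O') : core φ O ⊆ core φ O' :=
  fun v hv t => h (hv t)

theorem opn_core {T : ℝ} (hT : 0 < T) {φ : X × ℝ → X} (hφ : IsFlow D T φ) {O : Set X}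
    (hO : Opn D O) : Opn D (core φ O) := by
  have h1 : core φ O = {v | ∀ t ∈ Icc 0 T, (v, t) ∈ φ ⁻¹' O} := by
    ext v
    constructor
    · intro hv t _
      exact hv t
    · intro hv t
      have h2 : φ (v, toIcoMod hT 0 t) ∈ O := by
        have h3 := toIcoMod_mem_Ico hT 0 t
        rw [zero_add] at h3
        exact hv _ ⟨h3.1, h3.2.le⟩
      have h4 : ∀ (n : ℕ) (s : ℝ), φ (v, s + n * T) = φ (v, s) := by
        intro n
        induction n with
        | zero => intro s; simp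
        | succ n ih =>
          intro s
          have h5 : s + ((n + 1 : ℕ) : ℝ) * T = (s + n * T) + T := by push_cast; ring
          rw [h5, ← hφ.add, hφ.per, ih]
      have h6 : ∀ (n : ℤ) (s : ℝ), φ (v, s + n * T) = φ (v, s) := by
        intro n s
        rcases n.eq_nat_or_neg with ⟨m, hm | hm⟩
        · rw [hm]
          exact h4 m s
        · rw [hm]
          have h7 := h4 m (s + ((-(m : ℤ) : ℤ) : ℝ) * T)
          rw [← h7]
          congr 2
          push_cast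
          ring
      have h8 : toIcoMod hT 0 t + (toIcoDiv hT 0 t : ℤ) * T = t := by
        have := toIcoMod_add_toIcoDiv_zsmul hT 0 t
        rwa [zsmul_eq_mul] at this
      rw [← h8, h6]
      exact h2
  have h2 : Opn (D.prod (Dif.lin ℝ)) (φ ⁻¹' O) := Opn.preimage (f := φ) hφ.map hO
  rw [h1]
  exact Opn.forall_Icc h2 0 T

/-- the part of `O` whose track under the homotopy stays in `O₂` -/
def trk (O : Set X) (H : X × ℝ → Y) (O₂ : Set Y) : Set X :=
  {v | v ∈ O ∧ ∀ t ∈ Icc (0 : ℝ) 1, H (v, t) ∈ O₂}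

theorem trk_subset {O : Set X} {H : X × ℝ → Y} {O₂ : Set Y} : trk O H O₂ ⊆ O := fun v hv => hv.1

theorem opn_trk {O : Set X} (hO : Opn D O) {H : X × ℝ → Y}
    (hH : ((D.on O).prod (Dif.lin ℝ)).Map D' H) {O₂ : Set Y} (hO₂ : Opn D' O₂) :
    Opn D (trk O H O₂) := by
  have h1 : Opn (D.prod (Dif.lin ℝ)) {p : X × ℝ | p.1 ∈ O} := by
    refine ⟨fun {V} _ _ _ {u x} hu hx => ?_⟩
    exact hO.ev hu.1 hx
  have h2 : Opn (D.prod (Dif.lin ℝ)) ({p : X × ℝ | p.1 ∈ O} ∩ H ⁻¹' O₂) := by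
    refine ⟨fun {V} _ _ _ {u x} hu hx => ?_⟩
    have h3 := h1.ev hu hx.1
    have h4 : D'.At (H ∘ u) x := hH ⟨⟨hu.1, h3⟩, hu.2⟩
    filter_upwards [h3, hO₂.ev h4 hx.2] with y h5 h6
    exact ⟨h5, h6⟩
  have h3 := Opn.forall_Icc h2 0 1
  refine ⟨fun {V} _ _ _ {u x} hu hx => ?_⟩
  have h4 := h3.ev hu (fun t ht => ⟨hx.1, hx.2 t ht⟩)
  filter_upwards [h4] with y hy
  exact ⟨(hy 0 ⟨le_rfl, zero_le_one⟩).1, fun t ht => (hy t ht).2⟩

end Abstract

end Vale.Agent.P231.TH
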