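import Vale.Agent.P231.TH.Main2
import Vale.Agent.P231.H584.BoxT

/-!
# P231, stage 3, S3-INT (TWR): the tower of boxes in the unit tangent bundle
-/

set_option maxSynthPendingDepth 3
set_option linter.unusedSectionVars false
set_option linter.unusedVariables false

open Bundle Manifold Set Filter Module MeasureTheory
open scoped ContDiff Manifold Topology

namespace Vale.Agent.P231.TH

noncomputable section

open Vale.Agent.P234 Vale.Agent.P231 Vale.Agent.P231.Fm Vale.Agent.P231.W Vale.Agent.P231.H775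
open Vale.Agent.P231.H584 (Bt ThinMap)

section Conv

variable {X Y : Type*} {D : Dif X} {D' : Dif Y}

theorem Opn.isO {O : Set X} (h : Opn D O) : Co.IsO D O := ⟨fun hu hx => h.ev hu hx⟩

theorem Thin.thinMap {f : X → Y} {m : ℕ} (h : Thin D D' f m) : ThinMap D D' f m :=
  ⟨fun hu => h.fac hu⟩

end Conv

/-! ### abstract towers -/

section Abs

variable {X : Type*} {D : Dif X} {T : ℝ} {Φ : X × ℝ → X} (h : IsFlow D T Φ) (e : Form D)

/-- a tower of boxes -/
structure Twr (B : ℕ → Bt D) (r : ℕ) : Prop where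
  good : ∀ i ≤ r, (B i).Good h
  ch : ∀ j i, j ≤ i → i ≤ r → Bt.Ch h e (B j) (B i) (i - j)
  q : ∀ i < r, ∀ w : Form D, J Φ h.map T w = 0 → (B (i + 1)).L w.d = 0

variable {h e}

theorem Twr.N {B : ℕ → Bt D} {r : ℕ} (t : Twr h e B r) {i : ℕ} (hi : i ≤ r) :
    (B i).N = (B 0).N + 2 * i := by
  have := (t.ch 0 i (Nat.zero_le _) hi).N
  rwa [Nat.sub_zero] at this

/-- towers exist if single steps exist -/
theorem exists_twr (hed : e.d = 0) (hes : e.sg = e) (heb : Basic Φ h.map e)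
    (B₀ : Bt D) (hB₀ : B₀.Good h) (r : ℕ)
    (st : ∀ i < r, ∀ B : Bt D, B.Good h → B.N = B₀.N + 2 * i → ∃ B' : Bt D, B'.Good h ∧
      Bt.Ch h e B B' 1 ∧ ∀ w : Form D, J Φ h.map T w = 0 → B'.L w.d = 0) :
    ∃ B : ℕ → Bt D, B 0 = B₀ ∧ Twr h e B r := by
  induction r with
  | zero =>
    refine ⟨fun _ => B₀, rfl, fun i _ => hB₀, fun j i _ hi => ?_, fun i hi => by omega⟩
    have : i - j = 0 := by omega
    rw [this]
    exact Bt.Ch.refl h e B₀
  | succ r ih =>
    obtain ⟨B, hB0, hB⟩ := ih fun i hi => st i (by omega)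
    obtain ⟨B', h1, h2, h3⟩ := st r (Nat.lt_succ_self r) (B r) (hB.good r le_rfl) (by
      rw [hB.N le_rfl, hB0])
    refine ⟨fun i => if i ≤ r then B i else B', by simp [hB0], ?_, ?_, ?_⟩
    · intro i hi
      by_cases hir : i ≤ r
      · rw [if_pos hir]
        exact hB.good i hir
      · rw [if_neg hir]
        exact h1
    · intro j i hji hi
      by_cases hir : i ≤ r
      · simp only [if_pos hir, if_pos (hji.trans hir)]
        exact hB.ch j i hji hir
      · have hi' : i = r + 1 := by omega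
        subst hi'
        by_cases hjr : j ≤ r
        · simp only [if_pos hjr, if_neg hir]
          have h4 := Bt.Ch.trans hed hes heb (hB.ch j r hjr le_rfl) h2
          have h5 : r + 1 - j = r - j + 1 := by omega
          rw [h5]
          exact h4
        · simp only [if_neg hjr, if_neg hir]
          have h5 : r + 1 - j = 0 := by omega
          rw [h5]
          exact Bt.Ch.refl h e B'
    · intro i hi w hw
      by_cases hir : i + 1 ≤ r
      · simp only [if_pos hir]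
        exact hB.q i (by omega) w hw
      · simp only [if_neg hir]
        exact h3 w hw

end Abs

variable {E : Type*} [NormedAddCommGroup E] [NormedSpace ℝ E] [FiniteDimensional ℝ E]
  {M : Type*} [MetricSpace M] [ChartedSpace E M] [IsManifold 𝓘(ℝ, E) ∞ M]
  [RiemannianBundle (fun x : M => TangentSpace 𝓘(ℝ, E) x)]
  [IsContMDiffRiemannianBundle 𝓘(ℝ, E) ∞ E (fun x : M => TangentSpace 𝓘(ℝ, E) x)]
  [CompactSpace M] [ConnectedSpace M] [IsRiemannianManifold 𝓘(ℝ, E) M]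
  {e : ∀ x : M, TangentSpace 𝓘(ℝ, E) x → M}
variable (F : Facts e) {D : ℝ} (hD : 0 < D) (hB : InjGE e D)
    (hdiam : ∀ p q : M, dist p q ≤ D) {l : ℕ}
    (hl : ∀ x y : M, dist x y = D → finrank ℝ (Pl e D x y) = l + 1)

include hl in
/-- **one step of the tower on `UT`** -/
theorem exists_step {α : Form (dUT E M)}
    (hα : Form.pull (phi F) (isFlow_phi F hD hB hdiam).map α = pr α + dt)
    (B : Bt (dUT E M)) (hBg : B.Good (isFlow_phi F hD hB hdiam))
    (h1 : B.N + 2 < finrank ℝ E) (h2 : B.N + 1 ≤ l ∧ l < finrank ℝ E ∨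
      finrank ℝ E - (l + 1) ≤ B.N) :
    ∃ B' : Bt (dUT E M), B'.Good (isFlow_phi F hD hB hdiam) ∧
      Bt.Ch (isFlow_phi F hD hB hdiam) ((2 * D)⁻¹ • α.d) B B' 1 ∧
      ∀ w : Form (dUT E M), J (phi F) (isFlow_phi F hD hB hdiam).map (2 * D) w = 0 →
        B'.L w.d = 0 := by
  have hT : 2 * D ≠ 0 := by positivity
  have hfr := B.finrank_E
  obtain ⟨O, H, hH, hz, ht⟩ : ∃ (O : Set (UT E M)) (H : UT E M × ℝ → UT E M),
      (∃ m, Hom F O univ H m) ∧ (∀ x, B.G x ∈ O) ∧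
        ThinMap ((dUT E M).on O) (dUT E M) (fun v => H (v, 1)) B.N := by
    rcases h2 with h2 | h2
    · obtain ⟨O, H, hH, hz⟩ := exists_contr F hD hB hdiam hl (z := B.G) (T := univ)
        (fun s _ => B.plot s) (by rw [hfr]; exact h2.1) (by rw [hfr]; exact h1) h2.2
      exact ⟨O, H, ⟨_, hH⟩, fun x => hz x (mem_univ _),
        ((hH.thin.comp_left (g := id) Dif.map_on).mono (Nat.zero_le _)).thinMap⟩
    · obtain ⟨O, H, hH, hz⟩ := exists_push F hD hB hdiam hl (z := B.G) (T := univ)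
        (fun s _ => B.plot s) (by rw [hfr]; exact h1)
      exact ⟨O, H, ⟨_, hH⟩, fun x => hz x (mem_univ _),
        ((hH.thin.comp_left (g := id) Dif.map_on).mono h2).thinMap⟩
  obtain ⟨m, hH⟩ := hH
  obtain ⟨B', k1, k2, k3, -⟩ := Bt.exists_next (isFlow_phi F hD hB hdiam) hT hα B hBg
    hH.opn.isO hH.inv hz (fun hu => (hH.map hu).1) (fun v hv => hH.zero v hv 0 le_rfl) ht
  exact ⟨B', k1, k2, k3⟩

section Tower

variable {α : Form (dUT E M)}
    (hα : Form.pull (phi F) (isFlow_phi F hD hB hdiam).map α = pr α + dt) (hαo : α.sg = -α)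

include hl hα hαo in
/-- **the tower on `UT` over an arbitrary box** -/
theorem exists_tower (B₀ : Bt (dUT E M)) (hB₀ : B₀.Good (isFlow_phi F hD hB hdiam)) (r : ℕ)
    (hr : ∀ i < r, B₀.N + 2 * i + 2 < finrank ℝ E ∧
      (B₀.N + 2 * i + 1 ≤ l ∧ l < finrank ℝ E ∨ finrank ℝ E - (l + 1) ≤ B₀.N + 2 * i)) :
    ∃ B : ℕ → Bt (dUT E M), B 0 = B₀ ∧
      Twr (isFlow_phi F hD hB hdiam) ((2 * D)⁻¹ • α.d) B r := by
  refine exists_twr ?_ ?_ ?_ B₀ hB₀ r fun i hi B hB' hN => ?_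
  · rw [Form.d_smul, Form.d_d, smul_zero]
  · rw [Form.sg_smul, H584.d_even hαo]
  · exact H584.Basic.smul _ (H584.basic_d_contact (isFlow_phi F hD hB hdiam) hα)
  · exact exists_step F hD hB hdiam hl hα B hB' (by rw [hN]; exact (hr i hi).1)
      (by rw [hN]; exact (hr i hi).2)

theorem at_pt (v : UT E M) : (dUT E M).At (fun _ : EuclideanSpace ℝ (Fin 0) => v) 0 :=
  at_constUT v 0

include hl hα hαo in
/-- **the first tower**, `l = 7`, dimension `16` -/
theorem tower_one (hl7 : l = 7) (hN : finrank ℝ E = 16) (v : UT E M) :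
    ∃ B : ℕ → Bt (dUT E M), B 0 = Bt.pt v (at_pt v) ∧
      Twr (isFlow_phi F hD hB hdiam) ((2 * D)⁻¹ • α.d) B 7 ∧
      (∀ i ≤ 7, (B i).N = 2 * i) ∧ ∀ i ≤ 7, (B i).L (((2 * D)⁻¹ • α.d) ^ i) = 1 := by
  have hg : (Bt.pt v (at_pt v)).Good (isFlow_phi F hD hB hdiam) :=
    @Bt.good_zero _ _ (Bt.pt v (at_pt v)) _ _ (isFlow_phi F hD hB hdiam) rfl
  obtain ⟨B, h1, h2⟩ := exists_tower F hD hB hdiam hl hα hαo (Bt.pt v (at_pt v))
    hg 7 (fun i hi => by
      have h0 : (Bt.pt v (at_pt v)).N = 0 := rfl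
      rw [h0, hN, hl7]
      omega)
  refine ⟨B, h1, h2, fun i hi => ?_, fun i hi => ?_⟩
  · rw [h2.N hi, h1]
    exact Nat.zero_add _
  · have h3 := h2.ch 0 i (Nat.zero_le _) hi
    rw [Nat.sub_zero] at h3
    rw [h3.one (by rw [Form.d_smul, Form.d_d, smul_zero])
      (H584.Basic.smul _ (H584.basic_d_contact (isFlow_phi F hD hB hdiam) hα)), h1]
    exact Bt.pt_one v (at_pt v)

include hl hα hαo in
/-- **the second tower**, over a closed box of dimension `8` -/
theorem tower_two (hl7 : l = 7) (hN : finrank ℝ E = 16) (B₀ : Bt (dUT E M))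
    (hB₀ : B₀.Good (isFlow_phi F hD hB hdiam)) (hN₀ : B₀.N = 8)
    (hd : ∀ w : Form (dUT E M), B₀.L w.d = 0) :
    ∃ B : ℕ → Bt (dUT E M), B 0 = B₀ ∧
      Twr (isFlow_phi F hD hB hdiam) ((2 * D)⁻¹ • α.d) B 3 ∧
      (∀ i ≤ 3, (B i).N = 8 + 2 * i) ∧ ∀ i ≤ 3, (B i).L (((2 * D)⁻¹ • α.d) ^ (4 + i)) = 0 := by
  obtain ⟨B, h1, h2⟩ := exists_tower F hD hB hdiam hl hα hαo B₀ hB₀ 3 (fun i hi => by
      rw [hN₀, hN, hl7]
      omega)
  have hed : ((2 * D)⁻¹ • α.d).d = 0 := by rw [Form.d_smul, Form.d_d, smul_zero]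
  have heb : Basic (phi F) (isFlow_phi F hD hB hdiam).map ((2 * D)⁻¹ • α.d) :=
    H584.Basic.smul _ (H584.basic_d_contact (isFlow_phi F hD hB hdiam) hα)
  refine ⟨B, h1, h2, fun i hi => ?_, fun i hi => ?_⟩
  · rw [h2.N hi, h1, hN₀]
  · have h3 := h2.ch 0 i (Nat.zero_le _) hi
    rw [Nat.sub_zero] at h3
    rw [add_comm 4 i, pow_add, h3.mul _ (H584.pow_closed hed 4) (H584.Basic.pow heb 4), h1]
    have h4 : ((2 * D)⁻¹ • α.d) ^ 4 = (((2 * D)⁻¹ • α) * ((2 * D)⁻¹ • α.d) ^ 3).d := by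
      rw [H584.d_mul_closed _ (H584.pow_closed hed 3), Form.d_smul, pow_succ' _ 3]
    rw [h4]
    exact hd _

end Tower

end

end Vale.Agent.P231.TH
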