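import Vale.Agent.P231.S3I.Boxes7
import Vale.Agent.P231.S3E.NInt
import Vale.Agent.P231.S3C.CEq

/-!
# P231, stage 3, S3-INT (Z 7): the integrality statement `hZ` of the volume inequality
-/

set_option maxSynthPendingDepth 3
set_option linter.unusedSectionVars false
set_option linter.unusedVariables false

open Bundle Manifold Set Filter Module MeasureTheory
open scoped ContDiff Manifold Topology ENNReal Real

namespace Vale.Agent.P231.TH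

noncomputable section

open Vale.Agent.P234 Vale.Agent.P231 Vale.Agent.P231.Fm Vale.Agent.P231.W Vale.Agent.P231.WR
  Vale.Agent.P231.H766 Vale.Agent.P231.WG Vale.Agent.P231.S2II Vale.Agent.P231.WQ
  Vale.Agent.P231.L3 Vale.Agent.P231.S3F Vale.Agent.P231.S3C Vale.Agent.P231.ChW
  Vale.Agent.P231.X3
open Vale.Agent.P231.H584 (Bt Sys Eqv)

variable {E : Type*} [NormedAddCommGroup E] [NormedSpace ℝ E]
  {M : Type*} [MetricSpace M] [ChartedSpace E M]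
  [RiemannianBundle (fun x : M => TangentSpace 𝓘(ℝ, E) x)]
  {e : ∀ x : M, TangentSpace 𝓘(ℝ, E) x → M}
  [FiniteDimensional ℝ E] [IsManifold 𝓘(ℝ, E) ∞ M]
  [IsContMDiffRiemannianBundle 𝓘(ℝ, E) ∞ E (fun x : M => TangentSpace 𝓘(ℝ, E) x)]
  [CompactSpace M] [ConnectedSpace M] [IsRiemannianManifold 𝓘(ℝ, E) M]
  (F : Facts e) {D : ℝ} (hD : 0 < D) (hB : InjGE e D) (hdiam : ∀ p q : M, dist p q ≤ D)
  [MeasurableSpace M] [BorelSpace M]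
  (hl : ∀ x y : M, dist x y = D → finrank ℝ (H775.Pl e D x y) = 2 * 3 + 2)
  (hN : finrank ℝ E = 15 + 1) (hE : 15 + 1 = (2 * 3 + 2) * (1 + 1))
  {p : M}
  {Pi : TangentSpace 𝓘(ℝ, E) p → TangentSpace 𝓘(ℝ, E) p →L[ℝ] TangentSpace 𝓘(ℝ, E) p}
  {o : TangentSpace 𝓘(ℝ, E) p → Fm.Lam (TangentSpace 𝓘(ℝ, E) p)}
  {ρ : TangentSpace 𝓘(ℝ, E) p → ℝ} {r₀ : ℝ}
  (hJ : FE.LineP e D p 3 Pi o) (hρ : WE.Rho e D p ρ r₀)
  {Lm : Pr e D × ℝ → Pr e D} {Y : Pr e D → E} {ε₀ : ℝ} (hL : PushL F hD hB hdiam Lm Y ε₀)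
  (g : Pr e D × ℝ → M) (hg : ((dPr e D).prod (Dif.lin ℝ)).Map (dM E M) g)
  (hg0 : ∀ b, g (b, 0) = foot b.v) (hg1 : ∀ b t, g (Lm (b, t), 1) = g (b, 1))
  {R : ℝ} (X : Fr e p R) (v0 : UT E M) {r : Eu E → ℝ} {K : Set (Eu E)} (hr : Q.Cut r K)
  (hDR : D < R) (b : OrthonormalBasis (Fin (15 + 1)) ℝ (Eu E))
  {ι : Type} [Fintype ι] [DecidableEq ι] {Z δ : ι → UT E M → E} {ε : ℝ}
  (h : S2N.Fam F hD hB hdiam (2 * 3 + 1) Z δ ε)

/-- the Chern forms of the null plane bundle are closed, even and basic -/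
theorem ce_cF (k : ℕ) :
    (inst F hD hB hdiam hl hN hE hJ hρ one_ne_zero hL g hg hg0 hg1 X v0 hr hDR b).CE
      (XC.cF (pj h) k) :=
  ⟨XC.cF_even (pj h) (pX_phi F hD hB hdiam Z δ ε) (map_phi F) k,
    XC.cF_closed (pj h) (pX_phi F hD hB hdiam Z δ ε) (map_phi F) k,
    XC.cF_basic (pj h) (pX_phi F hD hB hdiam Z δ ε) (map_phi F) k⟩

theorem ce_neg {B' U' M' : Type*} {dB' : Dif B'} {dU' : Dif U'} {dM' : Dif M'} {D' c' : ℝ}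
    {S : Sys dB' dU' dM' 1 D' c'} {w : Form dU'} (hw : S.CE w) : S.CE (-w) :=
  ⟨by rw [Form.sg_neg, hw.sg], by rw [Form.d_neg, hw.d, neg_zero], H584.Basic.neg hw.bas⟩

/-- **the second Chern form of the null plane bundle** -/
theorem cF2_rel
    (hP : (inst F hD hB hdiam hl hN hE hJ hρ one_ne_zero hL g hg hg0 hg1 X v0 hr hDR b).PP)
    {ℓ : Form (dPr e D)} (hℓ : b1P F hD hB hdiam hL hg
      (FE.FF F hD hB hdiam hl hJ hρ 1) = (-1 : ℝ) • b0P F hD hB hdiam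
      (FE.FF F hD hB hdiam hl hJ hρ 1) + ℓ.d)
    {a' μ : ℝ} {σ : Form (dPr e D)} (hσ : Basic Lm hL.flow.map σ)
    (hrel : b1P F hD hB hdiam hL hg (FE.FF F hD hB hdiam hl hJ hρ 1) ^ 2 = a' • eP e D ^ 6 +
        μ • (eP e D ^ 2 * GsP F hD hB hdiam hg (FE.FF F hD hB hdiam hl hJ hρ 1)) + σ.d)
    (ha' : a' ≠ 0) :
    ∃ s : ℝ, Eqv (isFlow_phi F hD hB hdiam).map (XC.cF (pj h) 2)
        (-s • ((2 * D)⁻¹ • (CV.alpha E M).d) ^ 2) := by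
  set S := inst F hD hB hdiam hl hN hE hJ hρ one_ne_zero hL g hg hg0 hg1 X v0 hr hDR b with hS
  have hC : Coh S := coh7 F hD hB hdiam hl hN hE hJ hρ one_ne_zero hL g hg hg0 hg1 X v0 hr hDR b
    hP hℓ hσ hrel ha'
  have hFd : Form.IsDeg 8 S.F := S2II.isDeg_FF F hD hB hdiam hl hJ hρ 1
  have hε : (-1 : ℝ) ≠ 0 := by norm_num
  obtain ⟨c₂, hc2⟩ := two_Sys hC (xcl_basic h 2) (xcl_d h 2) (isDeg_xcl h 2)
  obtain ⟨k0, k1, k2, k3, k4, k5, k7⟩ := newton_even (newtE_spec (xcl h)) (xcl_odd h (by decide))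
    (xcl_odd h (by decide)) (xcl_odd h (by decide)) (xcl_odd h (by decide))
  have t2 : ∃ ρ' : Form (dUT E M), Basic S.φU S.hφU.map ρ' ∧ xcl h 2 = c₂ • S.eU ^ 2 + ρ'.d :=
    eqv_pi hP hFd hε (l := ℓ) hℓ (xcl_d h 2)
      (by rw [Form.d_smul, H584.pow_closed S.eU_d, smul_zero]) (by
      obtain ⟨ρ, r1, r2⟩ := hc2
      exact ⟨ρ, r1, by rw [r2, H584.pull_smul, H584.pull_pow, S.pi_eU]⟩)
  obtain ⟨ρ, r1, r2⟩ := t2
  refine ⟨c₂ / 2, -(1 / 2 : ℝ) • ρ, H584.Basic.smul _ r1, ?_⟩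
  have k2' : XC.cF (pj h) 2 = -(1 / 2 : ℝ) • xcl h 2 := k2
  rw [k2', r2, Form.d_smul]
  change _ = (-(c₂ / 2)) • S.eU ^ 2 + _
  module

/-- **`hZ`**, for a base point which is not bad, from the sixth Chern form (`h6`), the integral
`hf`, and the integrality of the numbers of the segments (`seg`) -/
theorem hZ7 (bx : S3I.Bxs F hD hB hdiam hL.flow) (hbad : p ∉ bx.bad g)
    (hrad : ∀ y z : Eu E, (inner ℝ y z : ℝ) = 0 → fderiv ℝ r y z = 0)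
    (hP : (inst F hD hB hdiam hl hN hE hJ hρ one_ne_zero hL g hg hg0 hg1 X v0 hr hDR b).PP)
    {ℓ : Form (dPr e D)} (hℓ : b1P F hD hB hdiam hL hg
      (FE.FF F hD hB hdiam hl hJ hρ 1) = (-1 : ℝ) • b0P F hD hB hdiam
      (FE.FF F hD hB hdiam hl hJ hρ 1) + ℓ.d)
    {a' μ : ℝ} {σ : Form (dPr e D)} (hσ : Basic Lm hL.flow.map σ)
    (hrel : b1P F hD hB hdiam hL hg (FE.FF F hD hB hdiam hl hJ hρ 1) ^ 2 = a' • eP e D ^ 6 +
        μ • (eP e D ^ 2 * GsP F hD hB hdiam hg (FE.FF F hD hB hdiam hl hJ hρ 1)) + σ.d)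
    (ha' : a' ≠ 0)
    (h6 : ∃ ρ₆ : Form (dPr e D), Basic Lm hL.flow.map ρ₆ ∧
      Form.pull Pr.v map_v (XC.cF (pj h) 6) = -((FE.kap 3 1)⁻¹ ^ 2) •
        b1P F hD hB hdiam hL hg (FE.FF F hD hB hdiam hl hJ hρ 1) ^ 2 + ρ₆.d)
    (hf : ∃ d : ℤ,
      (inst F hD hB hdiam hl hN hE hJ hρ one_ne_zero hL g hg hg0 hg1 X v0 hr hDR b).I
      ((inst F hD hB hdiam hl hN hE hJ hρ one_ne_zero hL g hg hg0 hg1 X v0 hr hDR b).P
        (((2 * D)⁻¹ •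
          (inst F hD hB hdiam hl hN hE hJ hρ one_ne_zero hL g hg hg0 hg1 X v0 hr hDR b).αB) *
        ((inst F hD hB hdiam hl hN hE hJ hρ one_ne_zero hL g hg hg0 hg1 X v0 hr hDR b).e ^ 10 *
        (inst F hD hB hdiam hl hN hE hJ hρ one_ne_zero hL g hg hg0 hg1 X v0 hr hDR b).G1 ^ 2))) =
      d * ∫ x in Metric.ball (0 : Eu E) D,
        evalForm
          (((inst F hD hB hdiam hl hN hE hJ hρ one_ne_zero hL g hg hg0 hg1 X v0 hr hDR b).F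
            ^ 2).val (ef e p) x) b.toBasis)
    (seg : ∀ B : Bt (dUT E M), B.Good (isFlow_phi F hD hB hdiam) →
      (B.N = 4 → ∃ n : ℤ, 28 * B.L (((2 * D)⁻¹ • (CV.alpha E M).d) ^ 2) +
        B.L (-XC.cF (pj h) 2) = n) ∧
      (B.N = 8 → ∃ n : ℤ, 210 * B.L (((2 * D)⁻¹ • (CV.alpha E M).d) ^ 4) +
        45 * B.L (((2 * D)⁻¹ • (CV.alpha E M).d) ^ 2 * -XC.cF (pj h) 2) +
        B.L ((-XC.cF (pj h) 2) ^ 2 - XC.cF (pj h) 4) = n) ∧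
      (B.N = 12 → ∃ n : ℤ, 924 * B.L (((2 * D)⁻¹ • (CV.alpha E M).d) ^ 6) +
        495 * B.L (((2 * D)⁻¹ • (CV.alpha E M).d) ^ 4 * -XC.cF (pj h) 2) +
        66 * B.L (((2 * D)⁻¹ • (CV.alpha E M).d) ^ 2 *
          ((-XC.cF (pj h) 2) ^ 2 - XC.cF (pj h) 4)) +
        B.L ((-XC.cF (pj h) 2) ^ 3 - 2 * (-XC.cF (pj h) 2) * XC.cF (pj h) 4 +
          -XC.cF (pj h) 6) = n)) :
    ∃ (al : ℝ) (n A m P : ℤ), a' = al * FE.kap 3 1 ^ 2 ∧ μ = A * FE.kap 3 1 / 2 ∧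
        |al| * n = 2 ∧ al + A * m / 2 = P := by
  have hC := coh7 F hD hB hdiam hl hN hE hJ hρ one_ne_zero hL g hg hg0 hg1 X v0 hr hDR b
    hP hℓ hσ hrel ha'
  have hFd : Form.IsDeg 8
      (inst F hD hB hdiam hl hN hE hJ hρ one_ne_zero hL g hg hg0 hg1 X v0 hr hDR b).F :=
    S2II.isDeg_FF F hD hB hdiam hl hJ hρ 1
  have hκ : 0 < FE.kap 3 1 := FE.kap_pos 3 one_ne_zero
  -- the class `u`
  obtain ⟨κU, h1, h2, h3, h4, hu1, hu2, hu3, hu4, -, -⟩ :=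
    Sys.lev2 hP hFd (l := ℓ) hℓ (ρ := σ) hσ hrel hC.H0 hC.H2 hC.H4 hC.H6 hC.HU1 hC.HU3 hC.HU5
      hC.HU7 (by norm_num)
      (inst_α F hD hB hdiam hl hN hE hJ hρ one_ne_zero hL g hg hg0 hg1 X v0 hr hDR b)
      (inst_vol_ne F hD hB hdiam hl hN hE hJ hρ one_ne_zero hL g hg hg0 hg1 X v0 hr hDR b)
  obtain ⟨s, ρ₂, hs1, hs2⟩ := cF2_rel F hD hB hdiam hl hN hE hJ hρ hL g hg hg0 hg1 X v0 hr hDR b h
    hP hℓ hσ hrel ha'
  have h1' : Eqv (isFlow_phi F hD hB hdiam).map (-XC.cF (pj h) 2)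
      (s • ((2 * D)⁻¹ • (CV.alpha E M).d) ^ 2) :=
    ⟨-ρ₂, H584.Basic.neg hs1, by
      rw [hs2, Form.d_neg]
      module⟩
  have hp' : Eqv
      (inst F hD hB hdiam hl hN hE hJ hρ one_ne_zero hL g hg hg0 hg1 X v0 hr hDR b).hφ.map
      ((inst F hD hB hdiam hl hN hE hJ hρ one_ne_zero hL g hg hg0 hg1 X v0 hr hDR b).b1 ^ 2)
      (((1 : ℝ) * FE.kap 3 1 ^ 2) • Form.pull
        (inst F hD hB hdiam hl hN hE hJ hρ one_ne_zero hL g hg hg0 hg1 X v0 hr hDR b).pi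
        (inst F hD hB hdiam hl hN hE hJ hρ one_ne_zero hL g hg hg0 hg1 X v0 hr hDR b).hpi
        (-XC.cF (pj h) 6)) := by
    obtain ⟨ρ₆, hρ₆, h6⟩ := h6
    refine ⟨(FE.kap 3 1 ^ 2) • ρ₆, H584.Basic.smul _ hρ₆, ?_⟩
    have e1 : Form.pull
        (inst F hD hB hdiam hl hN hE hJ hρ one_ne_zero hL g hg hg0 hg1 X v0 hr hDR b).pi
        (inst F hD hB hdiam hl hN hE hJ hρ one_ne_zero hL g hg hg0 hg1 X v0 hr hDR b).hpi
        (-XC.cF (pj h) 6) = -Form.pull Pr.v map_v (XC.cF (pj h) 6) :=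
      map_neg (Form.pullA (Pr.v (e := e) (D := D)) map_v) _
    have e2 : (inst F hD hB hdiam hl hN hE hJ hρ one_ne_zero hL g hg hg0 hg1 X v0 hr hDR b).b1 =
      b1P F hD hB hdiam hL hg (FE.FF F hD hB hdiam hl hJ hρ 1) := rfl
    rw [e1, h6, e2, Form.d_smul, one_mul]
    have e3 : FE.kap 3 1 ^ 2 * ((FE.kap 3 1)⁻¹ ^ 2) = 1 := by
      rw [← mul_pow, mul_inv_cancel₀ hκ.ne', one_pow]
    rw [neg_add, smul_add, smul_neg, smul_neg, neg_smul, smul_neg, smul_smul, e3, one_smul,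
      neg_neg]
    abel
  have c1 := ce_neg (ce_cF F hD hB hdiam hl hN hE hJ hρ hL g hg hg0 hg1 X v0 hr hDR b h 2)
  have c2 := ce_cF F hD hB hdiam hl hN hE hJ hρ hL g hg hg0 hg1 X v0 hr hDR b h 4
  have c3 := ce_neg (ce_cF F hD hB hdiam hl hN hE hJ hρ hL g hg hg0 hg1 X v0 hr hDR b h 6)
  obtain ⟨hM, hPm⟩ := S3I.ints_bxs F hD hB hdiam hl hN hE hJ hρ one_ne_zero hL g hg hg0 hg1 X v0
    hr hDR b bx hbad hP hu4 hσ hrel (ε := -1) (by norm_num) (ℓ := ℓ) hℓ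
    c1 c2 c3 h1' (s := 1) (by norm_num) hp' seg
  exact S3E.hZ_of F hD hB hdiam hl hN hE hJ hρ hL g hg hg0 hg1 X v0 hr hDR b hrad hP hℓ hσ hrel
    ha' hf hM hPm

end

end Vale.Agent.P231.TH
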